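import Vale.Agent.P248.Three.Defs

/-!
# P248: the equality case in space, definitions
-/

open MeasureTheory Set

namespace Vale.Agent.P248.Three

/-- The volume of the tetrahedron on four points. -/
noncomputable def tetVol (w : Fin 4 → R3) : ℝ :=
  |(Matrix.of fun (q l : Fin 3) => w q.succ l - w 0 l).det| / 6

/-- The largest volume of a tetrahedron with vertices in a body. -/
noncomputable def maxTet (K : Set R3) : ℝ :=
  sSup (tetVol '' Set.pi univ fun _ : Fin 4 => K)

/-- A tetrahedron inside fills the body up to the fraction `θ`. -/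
def Near (θ : ℝ) (K : Set R3) : Prop := (1 - θ) * volume.real K < maxTet K

/-- Vertices of the normalised tetrahedron with barycentric weights `l` of the origin. -/
def wn (l : Fin 4 → ℝ) (i : Fin 4) : R3 := fun q => (if i = q.succ then 1 else 0) - l q.succ

/-- Barycentric coordinates for the normalised tetrahedron. -/
def bn (l : Fin 4 → ℝ) (x : R3) : Fin 4 → ℝ :=
  Fin.cons (l 0 - ∑ q, x q) fun q => x q + l q.succ

/-- A normalised body: a largest inscribed tetrahedron is in standard position. -/
structure Normal (δ : ℝ) (l : Fin 4 → ℝ) (K : Set R3) : Prop where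
  good : Good K
  sum_one : ∑ i, l i = 1
  near : ∀ i, |l i - 1 / 4| ≤ δ
  mem : ∀ i, wn l i ∈ K
  le_one : ∀ x ∈ K, ∀ i, |bn l x i| ≤ 1
  cap : ∀ x ∈ K, ∀ i, 1 - 6 * volume.real K ≤ bn l x i
  max : 6 * maxTet K = 1

end Vale.Agent.P248.Three
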