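import Vale.Agent.P248.Equality.Defs
import Vale.Agent.P248.Three.Fibre

/-!
# P248: the two families of frames of a normalised tetrahedron
-/

open MeasureTheory Set
open scoped Pointwise

namespace Vale.Agent.P248.Three

variable {l : Fin 4 → ℝ}

/-- Vertices of the polar of the normalised tetrahedron. -/
noncomputable def yn (l : Fin 4 → ℝ) : Fin 4 → R3 :=
  ![![1 / l 0, 1 / l 0, 1 / l 0], ![-(1 / l 1), 0, 0], ![0, -(1 / l 2), 0], ![0, 0, -(1 / l 3)]]

lemma wn_eq (l : Fin 4 → ℝ) : wn l = ![![-l 1, -l 2, -l 3], ![1 - l 1, -l 2, -l 3],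
    ![-l 1, 1 - l 2, -l 3], ![-l 1, -l 2, 1 - l 3]] := by
  funext i q
  fin_cases i <;> fin_cases q <;> simp [wn, Fin.ext_iff]

lemma bn_vec (l : Fin 4 → ℝ) (x : R3) :
    bn l x = ![l 0 - (x 0 + x 1 + x 2), x 0 + l 1, x 1 + l 2, x 2 + l 3] := by
  funext i
  fin_cases i <;> simp [bn, Fin.sum_univ_three] <;> rfl

/-- The frame of the facet opposite to `j`. -/
def wFrame (l : Fin 4 → ℝ) (j : Fin 4) (k : Fin 3) : R3 := wn l (j.succAbove k)

/-- The frame of the dual facet opposite to `i`. -/
noncomputable def yFrame (l : Fin 4 → ℝ) (i : Fin 4) (k : Fin 3) : R3 := yn l (i.succAbove k)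

lemma sum_bn (hs : ∑ i, l i = 1) (x : R3) : ∑ i, bn l x i = 1 := by
  rw [Fin.sum_univ_four] at hs
  simp [bn_vec, Fin.sum_univ_four]
  linarith

lemma sum_bn_wn (hs : ∑ i, l i = 1) (x : R3) : ∑ i, bn l x i • wn l i = x := by
  rw [Fin.sum_univ_four] at hs
  funext q
  fin_cases q <;> simp [Fin.sum_univ_four, wn_eq, bn_vec]
  · linear_combination (-(l 1)) * hs
  · linear_combination (-(l 2)) * hs
  · linear_combination (-(l 3)) * hs

lemma bn_vertex (hs : ∑ i, l i = 1) (i j : Fin 4) :
    bn l (wn l i) j = if j = i then 1 else 0 := by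
  rw [Fin.sum_univ_four] at hs
  induction j using Fin.cases with
  | zero =>
    simp only [bn, wn, Fin.cons_zero, Fin.sum_univ_three, show (2 : Fin 3).succ = (3 : Fin 4) from rfl,
      show (1 : Fin 3).succ = (2 : Fin 4) from rfl, show (0 : Fin 3).succ = (1 : Fin 4) from rfl]
    fin_cases i <;> norm_num [Fin.ext_iff] <;> linarith
  | succ q =>
    simp only [bn, wn, Fin.cons_succ, eq_comm (a := i)]
    ring

lemma bn_combo (hs : ∑ i, l i = 1) (b : R3) (j i : Fin 4) :
    bn l (∑ k, b k • wFrame l j k) i =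
      (∑ k, if j.succAbove k = i then b k else 0) + (1 - ∑ k, b k) * l i := by
  have hsucc : ∀ q : Fin 3, bn l (∑ k, b k • wFrame l j k) q.succ =
      (∑ k, if j.succAbove k = q.succ then b k else 0) + (1 - ∑ k, b k) * l q.succ := fun q => by
    simp only [bn, wFrame, wn, Fin.cons_succ, Finset.sum_apply, Pi.smul_apply, smul_eq_mul,
      mul_sub, mul_ite, mul_one, mul_zero, Finset.sum_sub_distrib, ← Finset.sum_mul]
    ring
  induction i using Fin.cases with
  | succ q => exact hsucc q
  | zero =>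
    have h := sum_bn hs (∑ k, b k • wFrame l j k)
    rw [Fin.sum_univ_succ, Finset.sum_congr rfl fun q _ => hsucc q] at h
    have e : ∑ i : Fin 4, ((∑ k, if j.succAbove k = i then b k else 0) + (1 - ∑ k, b k) * l i) =
        1 := by
      rw [Finset.sum_add_distrib, Finset.sum_comm, ← Finset.mul_sum, hs]
      simp
    rw [Fin.sum_univ_succ] at e
    linarith

lemma wFrame_det (hs : ∑ i, l i = 1) (j : Fin 4) :
    |(Matrix.of (wFrame l j)).det| = |l j| := by
  rw [Fin.sum_univ_four] at hs
  rw [abs_eq_abs]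
  fin_cases j <;> simp [wFrame, wn_eq, Matrix.det_fin_three, Fin.succAbove, Fin.lt_def] <;>
    first | (left; linear_combination hs) | (left; linear_combination -hs) |
      (right; linear_combination hs) | (right; linear_combination -hs) |
      (left; ring1) | (right; ring1)

lemma yFrame_det (hl : ∀ i, l i ≠ 0) (i : Fin 4) :
    |(Matrix.of (yFrame l i)).det| = |l i / (l 0 * l 1 * l 2 * l 3)| := by
  have h0 := hl 0; have h1 := hl 1; have h2 := hl 2; have h3 := hl 3
  rw [abs_eq_abs]
  fin_cases i <;> simp [yFrame, yn, Matrix.det_fin_three, Fin.succAbove, Fin.lt_def] <;>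
    field_simp <;>
    first | (left; ring1) | (right; ring1) | tauto

lemma dot_yn (hl : ∀ i, l i ≠ 0) (x : R3) (i : Fin 4) :
    dot x (yn l i) = 1 - bn l x i / l i := by
  have h0 := hl 0; have h1 := hl 1; have h2 := hl 2; have h3 := hl 3
  fin_cases i <;> simp [dot, yn, bn_vec, Fin.sum_univ_three] <;> field_simp <;> ring

lemma dot_wn_yn (hs : ∑ i, l i = 1) (hl : ∀ i, l i ≠ 0) (i j : Fin 4) :
    dot (wn l i) (yn l j) = 1 - (if j = i then 1 else 0) / l j := by
  rw [dot_yn hl, bn_vertex hs]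

end Vale.Agent.P248.Three
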