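import Vale.Agent.P248.Equality.Orth
import Vale.Agent.P248.Equality.Frames

/-!
# P248: bodies close to a tetrahedron have a larger volume product, to first order
-/

open MeasureTheory Set Real
open scoped Pointwise

namespace Vale.Agent.P248.Three

variable {K : Set R3} {l : Fin 4 → ℝ} {δ : ℝ}

/-- The point of a dual facet where the gauge of the polar is at most one. -/
noncomputable def cpt (l : Fin 4 → ℝ) (i : Fin 4) : R3 :=
  ∑ k, (l (i.succAbove k) / (1 - l i)) • yFrame l i k

/-- The excess of the polar gauge near the corner `j` of the dual facet `i`. -/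
noncomputable def excess (K : Set R3) (l : Fin 4 → ℝ) (κ : ℝ) (i j : Fin 4) : ℝ :=
  gauge (polar K) ((1 - κ) • yn l j + κ • cpt l i) - 1

/-- The sum of the excesses. -/
noncomputable def excessSum (K : Set R3) (l : Fin 4 → ℝ) (κ : ℝ) : ℝ :=
  ∑ i : Fin 4, ∑ k : Fin 3, excess K l κ i (i.succAbove k)

lemma weight_bounds (h : Normal δ l K) (hδ : δ ≤ 1 / 20) (i : Fin 4) :
    1 / 5 ≤ l i ∧ l i ≤ 3 / 10 := by
  have := abs_le.1 (h.near i)
  constructor <;> linarith

lemma sum_weights (h : Normal δ l K) (i : Fin 4) : ∑ k, l (i.succAbove k) = 1 - l i := by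
  have := h.sum_one
  rw [Fin.sum_univ_succAbove l i] at this
  linarith

lemma dot_cpt (h : Normal δ l K) (hδ : δ ≤ 1 / 20) (x : R3) (i : Fin 4) :
    dot x (cpt l i) = (bn l x i - l i) / (1 - l i) := by
  have hl := fun q => (weight_bounds h hδ q)
  have hne : ∀ q, l q ≠ 0 := fun q => by linarith [(hl q).1]
  have e := sum_bn h.sum_one x
  rw [Fin.sum_univ_succAbove _ i] at e
  rw [cpt, dot_sum]
  simp only [dot_smul_right, yFrame, dot_yn hne, mul_sub, mul_one, Finset.sum_sub_distrib]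
  rw [← Finset.sum_div, sum_weights h i,
    Finset.sum_congr rfl (fun k _ => show l (i.succAbove k) / (1 - l i) *
      (bn l x (i.succAbove k) / l (i.succAbove k)) = bn l x (i.succAbove k) / (1 - l i) by
        have := hne (i.succAbove k); field_simp),
    ← Finset.sum_div, show ∑ k, bn l x (i.succAbove k) = 1 - bn l x i by linarith, ← sub_div]
  congr 1; ring

lemma gauge_cpt_le (h : Normal δ l K) (hδ : δ ≤ 1 / 20) (i : Fin 4) :
    gauge (polar K) (cpt l i) ≤ 1 := by
  refine Good.gauge_polar_le zero_le_one fun x hx => ?_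
  have := weight_bounds h hδ i
  rw [dot_cpt h hδ, div_le_one (by linarith)]
  linarith [(abs_le.1 (h.le_one x hx i)).2]

lemma gauge_yn_le (h : Normal δ l K) (hδ : δ ≤ 1 / 20) (j : Fin 4)
    (hρ : 0 ≤ 6 * volume.real K - 1) :
    gauge (polar K) (yn l j) ≤ 1 + 5 * (6 * volume.real K - 1) := by
  refine Good.gauge_polar_le (by linarith) fun x hx => ?_
  rw [dot_yn (fun q => by linarith [(weight_bounds h hδ q).1])]
  have hl := weight_bounds h hδ j
  have hc := h.cap x hx j
  suffices -(5 * (6 * volume.real K - 1)) ≤ bn l x j / l j by linarith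
  rw [le_div_iff₀ (by linarith)]
  nlinarith

lemma volume_excess_nonneg (h : Normal δ l K) : 0 ≤ 6 * volume.real K - 1 := by
  have := h.cap _ (h.mem 0) 1
  rw [bn_vertex h.sum_one] at this
  simpa using this

lemma excess_nonneg (h : Normal δ l K) (hδ : δ ≤ 1 / 20) {κ : ℝ} {i j : Fin 4} (hij : i ≠ j) :
    0 ≤ excess K l κ i j := by
  have hne : ∀ q, l q ≠ 0 := fun q => by linarith [(weight_bounds h hδ q).1]
  have := h.good.dot_le_of_mem (h.mem i) ((1 - κ) • yn l j + κ • cpt l i)
  rw [dot_add_right, dot_smul_right, dot_smul_right, dot_wn_yn h.sum_one hne, if_neg hij.symm,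
    dot_cpt h hδ, bn_vertex h.sum_one, if_pos rfl,
    div_self (by linarith [(weight_bounds h hδ i).2]), zero_div, sub_zero] at this
  rw [excess]; linarith

/-- A maximiser for an excess lies near the vertex. -/
lemma exists_point (h : Normal δ l K) (hδ : δ ≤ 1 / 20) {κ : ℝ} (hκ : 0 < κ) (hκ1 : κ ≤ 1 / 2)
    {i j : Fin 4} (hij : i ≠ j) :
    ∃ x ∈ K, excess K l κ i j ≤ -(bn l x j / l j) ∧
      ∀ m, m ≠ i → |bn l x m - bn l x j / l j * l m| ≤ 42 * (6 * volume.real K - 1) / κ := by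
  have hl := fun q => (weight_bounds h hδ q)
  have hne : ∀ q, l q ≠ 0 := fun q => by linarith [(hl q).1]
  set ρ := 6 * volume.real K - 1
  have hρ : 0 ≤ ρ := volume_excess_nonneg h
  obtain ⟨x, hx, hxe⟩ := h.good.exists_attain ((1 - κ) • yn l j + κ • cpt l i)
  refine ⟨x, hx, ?_⟩
  set β := bn l x
  have hval : (1 - κ) * (1 - β j / l j) + κ * ((β i - l i) / (1 - l i)) =
      1 + excess K l κ i j := by
    rw [excess, add_sub_cancel, ← hxe, dot_add_right, dot_smul_right, dot_smul_right, dot_yn hne,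
      dot_cpt h hδ]
  have ha := excess_nonneg h hδ (κ := κ) hij
  have hpos : 0 < 1 - l i := by linarith [(hl i).2]
  have hc : ∀ m, -ρ ≤ β m := fun m => by have := h.cap x hx m; simp only [ρ]; linarith
  have hc1 : (β i - l i) / (1 - l i) ≤ 1 := by
    rw [div_le_one hpos]; linarith [(abs_le.1 (h.le_one x hx i)).2]
  have hj5 : -(5 * ρ) ≤ β j / l j := by
    rw [le_div_iff₀ (by linarith [(hl j).1])]; nlinarith [hc j, (hl j).1]
  have h1 : excess K l κ i j ≤ -(β j / l j) := by
    nlinarith [mul_le_mul_of_nonneg_left hc1 hκ.le]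
  have hi : 1 - β i ≤ 5 * ρ / κ := by
    have e : κ * ((1 - β i) / (1 - l i)) ≤ 5 * ρ := by
      have : (1 - β i) / (1 - l i) = 1 - (β i - l i) / (1 - l i) := by field_simp; ring
      rw [this]; nlinarith
    have e2 : 1 - β i ≤ (1 - β i) / (1 - l i) := by
      rw [le_div_iff₀ hpos]
      nlinarith [(abs_le.1 (h.le_one x hx i)).2, (hl i).1]
    rw [le_div_iff₀ hκ]; nlinarith
  have hρκ : ρ ≤ ρ / κ := by rw [le_div_iff₀ hκ]; nlinarith
  have hup : ∀ m, m ≠ i → |β m| ≤ 7 * ρ / κ := fun m hm => by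
    have hs := sum_bn h.sum_one x
    rw [Fin.sum_univ_four] at hs
    have e : ∀ p q : Fin 4, p ≠ q → β p + β q ≤ 1 + 2 * ρ := by
      intro p q hpq
      fin_cases p <;> fin_cases q <;> simp at hpq ⊢ <;> linarith [hc 0, hc 1, hc 2, hc 3]
    have e := e i m (Ne.symm hm)
    rw [abs_le, mul_div_assoc]
    rw [mul_div_assoc] at hi
    constructor <;> linarith [hc m]
  refine ⟨h1, fun m hm => ?_⟩
  have h2 : |β j / l j| ≤ 5 * (7 * ρ / κ) := by
    rw [abs_div, abs_of_pos (show 0 < l j by linarith [(hl j).1]),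
      div_le_iff₀ (show 0 < l j by linarith [(hl j).1])]
    nlinarith [hup j (Ne.symm hij), (hl j).1, abs_nonneg (β j)]
  have h3 : |β j / l j * l m| ≤ |β j / l j| := by
    rw [abs_mul, abs_of_pos (show 0 < l m by linarith [(hl m).1])]
    exact mul_le_of_le_one_right (abs_nonneg _) (by linarith [(hl m).2])
  have h4 := hup m hm
  refine (abs_sub _ _).trans ?_
  rw [mul_div_assoc] at h2 h4 ⊢
  linarith

lemma coneOf_wFrame_disjoint (h : Normal δ l K) (hδ : δ ≤ 1 / 20) :
    Pairwise fun i j => Disjoint (coneOf (wFrame l i)) (coneOf (wFrame l j)) := by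
  intro i j hij
  refine disjoint_left.2 ?_
  rintro _ ⟨b, hb, rfl⟩ ⟨c, hc, e⟩
  obtain ⟨q, hq⟩ := Fin.exists_succAbove_eq hij.symm
  obtain ⟨q', hq'⟩ := Fin.exists_succAbove_eq hij
  have e1 : ∀ m, bn l (∑ k, c k • wFrame l j k) m = bn l (∑ k, b k • wFrame l i k) m := by
    intro m; exact congrArg (fun x => bn l x m) e
  have ei := e1 i
  have ej := e1 j
  rw [bn_combo h.sum_one, bn_combo h.sum_one] at ei ej
  rw [← hq] at ej
  rw [← hq'] at ei
  simp [Fin.succAbove_right_inj, Fin.succAbove_ne] at ei ej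
  rw [hq'] at ei
  rw [hq] at ej
  have hli := (weight_bounds h hδ i).1
  have hlj := (weight_bounds h hδ j).1
  nlinarith [hb q, hc q']

lemma coneOf_yFrame_disjoint (h : Normal δ l K) (hδ : δ ≤ 1 / 20) :
    Pairwise fun i j => Disjoint (coneOf (yFrame l i)) (coneOf (yFrame l j)) := by
  have hne : ∀ q, l q ≠ 0 := fun q => by linarith [(weight_bounds h hδ q).1]
  have key : ∀ (i m : Fin 4) (b : R3), dot (wn l m) (∑ k, b k • yFrame l i k) =
      tot b - ∑ k, (if i.succAbove k = m then b k / l m else 0) := by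
    intro i m b
    simp only [dot_sum, dot_smul_right, yFrame, dot_wn_yn h.sum_one hne, mul_sub, mul_one,
      Finset.sum_sub_distrib, tot]
    congr 1
    refine Finset.sum_congr rfl fun k _ => ?_
    by_cases hk : i.succAbove k = m
    · rw [if_pos hk, if_pos hk, hk]; ring
    · rw [if_neg hk, if_neg hk]; ring
  intro i j hij
  refine disjoint_left.2 ?_
  rintro _ ⟨b, hb, rfl⟩ ⟨c, hc, e⟩
  obtain ⟨q, hq⟩ := Fin.exists_succAbove_eq hij.symm
  obtain ⟨q', hq'⟩ := Fin.exists_succAbove_eq hij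
  have ei := (key j i c).symm.trans ((congrArg (dot (wn l i)) e).trans (key i i b))
  have ej := (key j j c).symm.trans ((congrArg (dot (wn l j)) e).trans (key i j b))
  rw [← hq] at ej
  rw [← hq'] at ei
  simp [Fin.succAbove_right_inj, Fin.succAbove_ne] at ei ej
  rw [hq'] at ei
  rw [hq] at ej
  linarith [div_pos (hb q) (show 0 < l j by linarith [(weight_bounds h hδ j).1]),
    div_pos (hc q') (show 0 < l i by linarith [(weight_bounds h hδ i).1])]

/-- The weight of the part of the octant near its boundary. -/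
noncomputable def edgeWeight (κ : ℝ) : ℝ := mean ((core κ)ᶜ.indicator tot)

lemma weighted_edge (κ : ℝ) : Weighted ((core κ)ᶜ.indicator tot) :=
  weighted_tot.indicator (measurableSet_core κ).compl

/-- What the body gains in one cone. -/
lemma gain (h : Normal δ l K) (hδ : δ ≤ 1 / 20) {κ : ℝ} (hκ : 0 < κ) (hκ1 : κ ≤ 1 / 4)
    (hρ : 42 * (6 * volume.real K - 1) / κ ≤ κ ^ 2) (j : Fin 4) :
    l j * (1 + (1 - 2 * κ - edgeWeight κ) * ∑ k, excess K l κ (j.succAbove k) j) ≤
      ∫ x in coneOf (wFrame l j), exp (-gauge K x) := by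
  have hlj : 0 < l j := by linarith [(weight_bounds h hδ j).1]
  have hdet := wFrame_det h.sum_one j
  rw [abs_of_pos hlj] at hdet
  have hP : (Matrix.of (wFrame l j)).det ≠ 0 := fun h0 => by
    rw [h0, abs_zero] at hdet; linarith
  choose x hx hxa hxc using fun k : Fin 3 =>
    exists_point h hδ hκ (by linarith) (Fin.succAbove_ne j k)
  set a : Fin 3 → ℝ := fun k => excess K l κ (j.succAbove k) j with ha
  have ha0 : ∀ k, 0 ≤ a k := fun k => excess_nonneg h hδ (Fin.succAbove_ne j k)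
  set X : Fin 3 → Fin 3 → ℝ :=
    fun k m => bn l (x k) (j.succAbove m) - bn l (x k) j / l j * l (j.succAbove m) with hX
  have hXsum : ∀ k, x k = ∑ m, X k m • wFrame l j m := fun k => by
    have e1 := sum_bn_wn h.sum_one (x k)
    have e2 := sum_bn_wn h.sum_one (0 : R3)
    rw [show bn l (0 : R3) = l from funext fun i => by fin_cases i <;> simp [bn_vec]] at e2
    rw [Fin.sum_univ_succAbove _ j] at e1 e2
    simp only [hX, sub_smul, Finset.sum_sub_distrib, mul_smul, ← Finset.smul_sum, wFrame]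
    rw [eq_neg_of_add_eq_zero_right e2, smul_neg, smul_smul, div_mul_cancel₀ _ hlj.ne',
      sub_neg_eq_add, add_comm]
    exact e1.symm
  have hXtot : ∀ k, 1 + a k ≤ ∑ m, X k m := fun k => by
    have e := sum_bn h.sum_one (x k)
    rw [Fin.sum_univ_succAbove _ j] at e
    simp only [hX, Finset.sum_sub_distrib, ← Finset.mul_sum, sum_weights h j, mul_sub, mul_one,
      div_mul_cancel₀ _ hlj.ne']
    linarith [hxa k]
  have hXoff : ∀ k m, m ≠ k → X k m ≤ κ ^ 2 := fun k m hm =>
    ((le_abs_self _).trans (hxc k _ (fun e => hm (Fin.succAbove_right_inj.1 e)))).trans hρ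
  have hXdiag : ∀ k, X k k ≤ 1 + κ ^ 2 := fun k => by
    have h1 := (abs_le.1 (h.le_one _ (hx k) (j.succAbove k))).2
    have h2 : |bn l (x k) j - bn l (x k) j / l j * l j| ≤ κ ^ 2 :=
      (hxc k j (Fin.succAbove_ne j k).symm).trans hρ
    have h3 : -(bn l (x k) j / l j * l (j.succAbove k)) ≤ κ ^ 2 := by
      have hc := h.cap _ (hx k) j
      have hρ0 := volume_excess_nonneg h
      have h4 : -(5 * (6 * volume.real K - 1)) ≤ bn l (x k) j / l j := by
        rw [le_div_iff₀ hlj]; nlinarith [(weight_bounds h hδ j).1]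
      have h5 : 5 * (6 * volume.real K - 1) ≤ κ ^ 2 := by
        rw [div_le_iff₀ hκ] at hρ; nlinarith [pow_pos hκ 2]
      nlinarith [(weight_bounds h hδ (j.succAbove k)).1, (weight_bounds h hδ (j.succAbove k)).2]
    simp only [hX]; linarith
  set ψ : R3 → ℝ := fun b =>
    (∑ k, (1 - 2 * κ) * a k * b k) + (-∑ k, a k) * (core κ)ᶜ.indicator tot b with hψ
  have hw1 : Weighted fun b => ∑ k, (1 - 2 * κ) * a k * b k :=
    Weighted.sum fun k => (moment_coord k).1.const_mul _
  have hm : mean ψ = (1 - 2 * κ - edgeWeight κ) * ∑ k, a k := by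
    rw [hψ, mean_add hw1 ((weighted_edge κ).const_mul _), mean_const_mul,
      mean_sum fun k => (moment_coord k).1.const_mul _]
    simp only [mean_const_mul, (moment_coord _).2, mul_one, ← Finset.mul_sum, edgeWeight]
    ring
  rw [← hdet, ← hm]
  refine cone_lower h.good hP (hw1.add ((weighted_edge κ).const_mul _)) fun b hb => ?_
  have h1 : ∀ m, gauge K (wFrame l j m) ≤ 1 := fun m => gauge_le_one_of_mem (h.mem _)
  have hbase : gauge K (∑ k, b k • wFrame l j k) ≤ tot b := by
    refine (gauge_sum_le h.good _ _ _ fun k _ => (hb k).le).trans (Finset.sum_le_sum fun k _ => ?_)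
    exact mul_le_of_le_one_right (hb k).le (h1 k)
  by_cases hc : b ∈ core κ
  swap
  · refine hbase.trans ?_
    rw [hψ]
    simp only [indicator_of_mem (show b ∈ (core κ)ᶜ from hc)]
    have : ∑ k, (1 - 2 * κ) * a k * b k ≤ ∑ k, a k * tot b := Finset.sum_le_sum fun k _ => by
      have := mul_le_mul_of_nonneg_left (le_tot hb k) (ha0 k)
      linarith [mul_nonneg hκ.le (mul_nonneg (ha0 k) (hb k).le)]
    rw [← Finset.sum_mul] at this
    linarith
  rw [hψ]
  simp only [indicator_of_notMem (show b ∉ (core κ)ᶜ from fun h => h hc), mul_zero, add_zero]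
  set τ : Fin 3 → ℝ := fun k => (1 - 2 * κ) * b k with hτ
  have hτ0 : ∀ k, 0 ≤ τ k := fun k => mul_nonneg (by linarith) (hb k).le
  set R : Fin 3 → ℝ := fun m => b m - ∑ k, τ k * X k m with hR
  have hR0 : ∀ m, 0 ≤ R m := fun m => by
    have hle : ∑ k, τ k * X k m ≤ ∑ k, (τ k * κ ^ 2 + if k = m then τ k else 0) :=
      Finset.sum_le_sum fun k _ => by
        by_cases hk : k = m
        · subst hk; rw [if_pos rfl]; nlinarith [hXdiag k, hτ0 k]
        · rw [if_neg hk, add_zero]
          exact mul_le_mul_of_nonneg_left (hXoff k m (Ne.symm hk)) (hτ0 k)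
    rw [Finset.sum_add_distrib, Finset.sum_ite_eq', if_pos (Finset.mem_univ m)] at hle
    have ht : ∑ k, τ k * κ ^ 2 ≤ tot b * κ ^ 2 := by
      rw [tot, Finset.sum_mul]
      exact Finset.sum_le_sum fun k _ => mul_le_mul_of_nonneg_right
        (by simp only [hτ]; nlinarith [hb k]) (sq_nonneg κ)
    have := hc m
    simp only [hR]
    simp only [hτ] at hle ht ⊢
    nlinarith [mul_le_mul_of_nonneg_left this hκ.le, hb m]
  have hsplit : ∑ k, b k • wFrame l j k = (∑ k, τ k • x k) + ∑ m, R m • wFrame l j m := by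
    simp only [hXsum, Finset.smul_sum, smul_smul]
    rw [Finset.sum_comm, ← Finset.sum_add_distrib]
    refine Finset.sum_congr rfl fun m _ => ?_
    rw [← Finset.sum_smul, ← add_smul]
    simp only [hR, add_sub_cancel]
  rw [hsplit]
  refine (gauge_add_le h.good.conv h.good.absorbs _ _).trans ?_
  have g1 : gauge K (∑ k, τ k • x k) ≤ ∑ k, τ k :=
    (gauge_sum_le h.good _ _ _ fun k _ => hτ0 k).trans (Finset.sum_le_sum fun k _ =>
      mul_le_of_le_one_right (hτ0 k) (gauge_le_one_of_mem (hx k)))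
  have g2 : gauge K (∑ m, R m • wFrame l j m) ≤ ∑ m, R m :=
    (gauge_sum_le h.good _ _ _ fun k _ => hR0 k).trans (Finset.sum_le_sum fun k _ =>
      mul_le_of_le_one_right (hR0 k) (h1 k))
  have g3 : ∑ k, τ k * (1 + a k) ≤ ∑ m, ∑ k, τ k * X k m := by
    rw [Finset.sum_comm]
    exact Finset.sum_le_sum fun k _ => by
      rw [← Finset.mul_sum]; exact mul_le_mul_of_nonneg_left (hXtot k) (hτ0 k)
  simp only [mul_add, mul_one, Finset.sum_add_distrib] at g3
  simp only [hR, Finset.sum_sub_distrib] at g2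
  have e : ∑ k, τ k * a k = ∑ k, (1 - 2 * κ) * a k * b k :=
    Finset.sum_congr rfl fun k _ => by simp only [hτ]; ring
  rw [tot]
  linarith

/-- What the polar loses at most in one cone. -/
lemma loss (h : Normal δ l K) (hδ : δ ≤ 1 / 40) {κ : ℝ} (hκ : 0 < κ) (hκ1 : κ ≤ 1 / 4)
    (i : Fin 4) :
    l i / (l 0 * l 1 * l 2 * l 3) *
      (1 - (1 - mean lo / 2) / (1 - κ) * ∑ k, excess K l κ i (i.succAbove k) -
        5 * (6 * volume.real K - 1) * edgeWeight κ) ≤
      ∫ x in coneOf (yFrame l i), exp (-gauge (polar K) x) := by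
  have hδ' : δ ≤ 1 / 20 := by linarith
  have hl := fun q => weight_bounds h hδ' q
  have hl0 : ∀ q, 0 < l q := fun q => by linarith [(hl q).1]
  have hdet := yFrame_det (fun q => (hl0 q).ne') i
  have hD : 0 < l i / (l 0 * l 1 * l 2 * l 3) :=
    div_pos (hl0 i) (mul_pos (mul_pos (mul_pos (hl0 0) (hl0 1)) (hl0 2)) (hl0 3))
  rw [abs_of_pos hD] at hdet
  have hP : (Matrix.of (yFrame l i)).det ≠ 0 := fun h0 => by rw [h0, abs_zero] at hdet; linarith
  set ρ := 6 * volume.real K - 1
  have hρ : 0 ≤ ρ := volume_excess_nonneg h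
  set a : Fin 3 → ℝ := fun k => excess K l κ i (i.succAbove k) with ha
  have ha0 : ∀ k, 0 ≤ a k := fun k => excess_nonneg h hδ' (Fin.succAbove_ne i k).symm
  set q : Fin 3 → ℝ := fun k => l (i.succAbove k) / (1 - l i) with hq
  have hli : 0 < 1 - l i := by linarith [(hl i).2]
  have hqs : ∑ k, q k = 1 := by
    simp only [hq]; rw [← Finset.sum_div, sum_weights h i, div_self hli.ne']
  have hq1 : ∀ k, 1 / 4 ≤ q k ∧ q k ≤ 1 / 2 := fun k => by
    simp only [hq]
    have h1 := abs_le.1 (h.near (i.succAbove k))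
    have h2 := abs_le.1 (h.near i)
    constructor
    · rw [le_div_iff₀ hli]; linarith
    · rw [div_le_iff₀ hli]; linarith
  set ψ : R3 → ℝ := fun b => (∑ k, -(a k / (1 - κ)) * (b k + -(2 * q k) * lo b)) +
    -(5 * ρ) * (core κ)ᶜ.indicator tot b with hψ
  have hw0 : ∀ k, Weighted fun b => b k + -(2 * q k) * lo b := fun k =>
    (moment_coord k).1.add (weighted_lo.const_mul _)
  have hw1 : Weighted fun b => ∑ k, -(a k / (1 - κ)) * (b k + -(2 * q k) * lo b) :=
    Weighted.sum fun k => (hw0 k).const_mul _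
  have hm : -((1 - mean lo / 2) / (1 - κ) * ∑ k, a k) - 5 * ρ * edgeWeight κ ≤ mean ψ := by
    rw [hψ, mean_add hw1 ((weighted_edge κ).const_mul _), mean_const_mul,
      mean_sum fun k => (hw0 k).const_mul _, edgeWeight]
    simp only [mean_const_mul, mean_add (moment_coord _).1 (weighted_lo.const_mul _),
      (moment_coord _).2]
    have : ∑ k, -((1 - mean lo / 2) / (1 - κ) * a k) ≤
        ∑ k, -(a k / (1 - κ)) * (1 + -(2 * q k) * mean lo) := Finset.sum_le_sum fun k _ => by
      rw [div_mul_eq_mul_div, mul_div_assoc, neg_mul, neg_le_neg_iff, mul_comm]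
      exact mul_le_mul_of_nonneg_right (by nlinarith [mean_lo_pos, (hq1 k).1])
        (div_nonneg (ha0 k) (by linarith))
    rw [Finset.sum_neg_distrib, ← Finset.mul_sum] at this
    linarith
  refine le_trans ?_ ((hdet ▸ le_rfl : l i / (l 0 * l 1 * l 2 * l 3) * (1 + mean ψ) ≤
    |(Matrix.of (yFrame l i)).det| * (1 + mean ψ)).trans
    (cone_lower h.good.good_polar hP (hw1.add ((weighted_edge κ).const_mul _)) fun b hb => ?_))
  · refine mul_le_mul_of_nonneg_left ?_ hD.le
    linarith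
  set u : Fin 3 → ℝ := fun k => b k - 2 * q k * lo b with hu
  have hu0 : ∀ k, 0 ≤ u k := fun k => by
    simp only [hu]; nlinarith [lo_le b k, lo_pos hb, (hq1 k).2]
  set β : Fin 3 → ℝ := fun k => u k / (1 - κ) with hβ
  have hβ0 : ∀ k, 0 ≤ β k := fun k => div_nonneg (hu0 k) (by linarith)
  have eψ : ψ b = -(∑ k, β k * a k) + -(5 * ρ) * (core κ)ᶜ.indicator tot b := by
    simp only [hψ, hβ, hu, ← Finset.sum_neg_distrib]
    congr 1
    refine Finset.sum_congr rfl fun k _ => ?_
    ring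
  rw [eψ]
  by_cases hc : b ∈ core κ
  swap
  · rw [indicator_of_mem (show b ∈ (core κ)ᶜ from hc)]
    have : gauge (polar K) (∑ k, b k • yFrame l i k) ≤ ∑ k, b k * (1 + 5 * ρ) :=
      (gauge_sum_le h.good.good_polar _ _ _ fun k _ => (hb k).le).trans
        (Finset.sum_le_sum fun k _ => mul_le_mul_of_nonneg_left (gauge_yn_le h hδ' _ hρ) (hb k).le)
    rw [← Finset.sum_mul, ← tot] at this
    nlinarith [Finset.sum_nonneg fun k (_ : k ∈ Finset.univ) => mul_nonneg (hβ0 k) (ha0 k)]
  rw [indicator_of_notMem (show b ∉ (core κ)ᶜ from fun h => h hc), mul_zero, add_zero]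
  have hsum_u : ∑ k, u k = tot b - 2 * lo b := by
    simp only [hu, Finset.sum_sub_distrib, ← Finset.sum_mul, ← Finset.mul_sum, hqs, tot]; ring
  have hsum_β : ∑ k, β k = (tot b - 2 * lo b) / (1 - κ) := by
    simp only [hβ]; rw [← Finset.sum_div, hsum_u]
  set m := 2 * lo b - κ * ∑ k, β k with hm'
  have hm0 : 0 ≤ m := by
    have hlo : κ * tot b ≤ lo b := le_min (hc 0) (le_min (hc 1) (hc 2))
    rw [hm', hsum_β, sub_nonneg, mul_div_assoc', div_le_iff₀ (by linarith)]
    nlinarith [lo_pos hb]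
  have hsplit : ∑ k, b k • yFrame l i k =
      (∑ k, β k • ((1 - κ) • yn l (i.succAbove k) + κ • cpt l i)) + m • cpt l i := by
    simp only [smul_add, smul_smul, Finset.sum_add_distrib, ← Finset.sum_smul, add_assoc,
      ← add_smul]
    rw [show ∑ k, β k * κ + m = 2 * lo b by rw [hm', ← Finset.sum_mul]; ring, cpt, Finset.smul_sum,
      ← Finset.sum_add_distrib]
    refine Finset.sum_congr rfl fun k _ => ?_
    rw [smul_smul, yFrame, ← add_smul]
    congr 1
    have e1 : (1 : ℝ) - κ ≠ 0 := by linarith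
    simp only [hβ, hu, hq]
    field_simp
    ring
  rw [hsplit]
  refine (gauge_add_le h.good.good_polar.conv h.good.good_polar.absorbs _ _).trans ?_
  have g1 := gauge_sum_le h.good.good_polar Finset.univ β
    (fun k => (1 - κ) • yn l (i.succAbove k) + κ • cpt l i) fun k _ => hβ0 k
  have g2 : ∀ k, gauge (polar K) ((1 - κ) • yn l (i.succAbove k) + κ • cpt l i) = 1 + a k :=
    fun k => by simp [ha, excess]
  simp only [g2, mul_add, mul_one, Finset.sum_add_distrib] at g1
  have g3 : gauge (polar K) (m • cpt l i) ≤ m := by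
    rw [gauge_smul_of_nonneg hm0, smul_eq_mul]
    exact mul_le_of_le_one_right hm0 (gauge_cpt_le h hδ' i)
  have e : ∑ k, β k + m = tot b := by
    have e1 : (1 : ℝ) - κ ≠ 0 := by linarith
    rw [hm', hsum_β]; field_simp; ring
  linarith

lemma excess_pairs :
    ∑ j : Fin 4, ∑ k : Fin 3, excess K l δ (j.succAbove k) j = excessSum K l δ := by
  have e1 : ∀ j : Fin 4, ∑ k, excess K l δ (j.succAbove k) j =
      ∑ i, excess K l δ i j - excess K l δ j j := fun j => by
    rw [Fin.sum_univ_succAbove _ j]; ring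
  have e2 : ∀ i : Fin 4, ∑ k, excess K l δ i (i.succAbove k) =
      ∑ j, excess K l δ i j - excess K l δ i i := fun i => by
    rw [Fin.sum_univ_succAbove _ i]; ring
  simp only [excessSum, e1, e2, Finset.sum_sub_distrib]
  rw [Finset.sum_comm]

lemma prod_weights_le (h : Normal δ l K) (hl : ∀ i, 0 < l i) :
    l 0 * l 1 * l 2 * l 3 ≤ 1 / 256 := by
  have hs : l 0 + l 1 + l 2 + l 3 = 1 := by rw [← h.sum_one, Fin.sum_univ_four]
  have p1 : l 0 * l 1 ≤ ((l 0 + l 1) / 2) ^ 2 := by nlinarith [sq_nonneg (l 0 - l 1)]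
  have p2 : l 2 * l 3 ≤ ((l 2 + l 3) / 2) ^ 2 := by nlinarith [sq_nonneg (l 2 - l 3)]
  have p3 := mul_le_mul p1 p2 (mul_pos (hl 2) (hl 3)).le (sq_nonneg _)
  have p4 : (l 0 + l 1) * (l 2 + l 3) ≤ 1 / 4 := by nlinarith [sq_nonneg (l 0 + l 1 - l 2 - l 3)]
  have p5 := pow_le_pow_left₀ (mul_nonneg (add_nonneg (hl 0).le (hl 1).le)
    (add_nonneg (hl 2).le (hl 3).le)) p4 2
  linarith

lemma gain_sum (h : Normal δ l K) (hδ : δ ≤ 1 / 40) {κ : ℝ} (hκ : 0 < κ) (hκ1 : κ ≤ 1 / 4)
    (hJ : edgeWeight κ ≤ 1 / 4) (hρκ : 42 * (6 * volume.real K - 1) / κ ≤ κ ^ 2) :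
    (1 / 4 - δ) * (1 - 2 * κ - edgeWeight κ) * excessSum K l κ ≤ 6 * volume.real K - 1 := by
  have hδ' : δ ≤ 1 / 20 := by linarith
  have hl : ∀ i, 0 < l i := fun i => by linarith [(weight_bounds h hδ' i).1]
  have h1 := (Finset.sum_le_sum fun j (_ : j ∈ Finset.univ) =>
    gain h hδ' hκ hκ1 hρκ j).trans
    (sum_cones_le h.good (fun j h0 => by
      have := wFrame_det h.sum_one j
      rw [h0, abs_zero] at this
      exact (abs_pos.2 (hl j).ne').ne this) (coneOf_wFrame_disjoint h hδ'))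
  simp only [mul_add, mul_one, Finset.sum_add_distrib, h.sum_one] at h1
  have h2 : ∑ j, (1 / 4 - δ) * ((1 - 2 * κ - edgeWeight κ) *
        ∑ k, excess K l κ (j.succAbove k) j) ≤
      ∑ j, l j * ((1 - 2 * κ - edgeWeight κ) * ∑ k, excess K l κ (j.succAbove k) j) :=
    Finset.sum_le_sum fun j _ => mul_le_mul_of_nonneg_right
      (by linarith [(abs_le.1 (h.near j)).1])
      (mul_nonneg (by linarith) (Finset.sum_nonneg fun k _ =>
        excess_nonneg h hδ' (Fin.succAbove_ne j k)))
  rw [← Finset.mul_sum, ← Finset.mul_sum, excess_pairs, ← mul_assoc] at h2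
  linarith

lemma loss_sum (h : Normal δ l K) (hδ : δ ≤ 1 / 40) {κ : ℝ} (hκ : 0 < κ) (hκ1 : κ ≤ 1 / 4) :
    1 - ((1 / 4 + δ) * ((1 - mean lo / 2) / (1 - κ)) * excessSum K l κ +
        5 * (6 * volume.real K - 1) * edgeWeight κ) ≤
      6 * volume.real (polar K) * (l 0 * l 1 * l 2 * l 3) := by
  have hδ' : δ ≤ 1 / 20 := by linarith
  have hl : ∀ i, 0 < l i := fun i => by linarith [(weight_bounds h hδ' i).1]
  set P := l 0 * l 1 * l 2 * l 3 with hP
  have hP0 : 0 < P := mul_pos (mul_pos (mul_pos (hl 0) (hl 1)) (hl 2)) (hl 3)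
  set M := (1 - mean lo / 2) / (1 - κ)
  have hM0 : 0 ≤ M := div_nonneg (by linarith [mean_lo_le_one]) (by linarith)
  set ρ := 6 * volume.real K - 1
  have h1 := (Finset.sum_le_sum fun i (_ : i ∈ Finset.univ) => loss h hδ hκ hκ1 i).trans
    (sum_cones_le h.good.good_polar (fun i h0 => by
      have := yFrame_det (fun q => (hl q).ne') i
      rw [h0, abs_zero] at this
      exact (abs_pos.2 (div_ne_zero (hl i).ne' hP0.ne')).ne this)
      (coneOf_yFrame_disjoint h hδ'))
  have h2 : ∑ i, (l i * (1 - 5 * ρ * edgeWeight κ) -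
        (1 / 4 + δ) * M * ∑ k, excess K l κ i (i.succAbove k)) ≤
      (∑ i, l i / P * (1 - M * (∑ k, excess K l κ i (i.succAbove k)) - 5 * ρ * edgeWeight κ)) * P := by
    rw [Finset.sum_mul]
    refine Finset.sum_le_sum fun i _ => ?_
    have eP : ∀ X : ℝ, l i / P * X * P = l i * X := fun X => by field_simp
    rw [eP]
    have : 0 ≤ M * ∑ k, excess K l κ i (i.succAbove k) := mul_nonneg hM0
      (Finset.sum_nonneg fun k _ => excess_nonneg h hδ' (Fin.succAbove_ne i k).symm)
    linarith [mul_le_mul_of_nonneg_right (show l i ≤ 1 / 4 + δ by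
      linarith [(abs_le.1 (h.near i)).2]) this]
  rw [Finset.sum_sub_distrib, ← Finset.sum_mul, ← Finset.mul_sum, h.sum_one,
    show ∑ i, ∑ k, excess K l κ i (i.succAbove k) = excessSum K l κ from rfl] at h2
  have h3 := mul_le_mul_of_nonneg_right h1 hP0.le
  linarith

lemma combine {s κ J m A ρ : ℝ} (hs0 : 0 < s) (hs1 : s ≤ 1 / 400) (hκ : κ ≤ s) (hJ : J ≤ s)
    (hm : 1 - 200 * s = 1 - m / 2) (hρ : 0 ≤ ρ) (hA : 0 ≤ A)
    (hg : (1 / 4 - s) * (1 - 2 * κ - J) * A ≤ ρ) :
    (1 / 4 + s) * ((1 - m / 2) / (1 - κ)) * A + 5 * ρ * J ≤ (1 - 115 * s) * ρ := by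
  have h1 : (1 / 4 + s) * ((1 - m / 2) / (1 - κ)) ≤
      (1 - 120 * s) * ((1 / 4 - s) * (1 - 2 * κ - J)) := by
    have e1 : (1 - m / 2) / (1 - κ) ≤ (1 - 200 * s) / (1 - s) := by
      rw [← hm]
      exact div_le_div_of_nonneg_left (by linarith) (by linarith) (by linarith)
    have e2 : (1 - 120 * s) * ((1 / 4 - s) * (1 - 3 * s)) ≤
        (1 - 120 * s) * ((1 / 4 - s) * (1 - 2 * κ - J)) :=
      mul_le_mul_of_nonneg_left (mul_le_mul_of_nonneg_left (by linarith) (by linarith))
        (by linarith)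
    refine le_trans (le_trans (mul_le_mul_of_nonneg_left e1 (by linarith)) ?_) e2
    rw [mul_div_assoc', div_le_iff₀ (by linarith)]
    nlinarith [pow_pos hs0 2, pow_pos hs0 3, mul_nonneg hs0.le (sub_nonneg.2 hs1)]
  have h2 := mul_le_mul_of_nonneg_right h1 hA
  have h3 := mul_le_mul_of_nonneg_left hg (show 0 ≤ 1 - 120 * s by linarith)
  have h4 : ρ * J ≤ ρ * s := mul_le_mul_of_nonneg_left hJ hρ
  linarith

/-- Near a tetrahedron the volume product exceeds its value linearly in the volume excess. -/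
theorem normal_local : ∃ δ r κ : ℝ, 0 < δ ∧ 0 < r ∧ 0 < κ ∧ ∀ (K : Set R3) (l : Fin 4 → ℝ),
    Normal δ l K → 6 * volume.real K - 1 ≤ r →
      64 / 9 * (1 + κ * (6 * volume.real K - 1)) ≤ prod0 K := by
  set s := mean lo / 400 with hs
  have hs0 : 0 < s := div_pos mean_lo_pos (by norm_num)
  have hs1 : s ≤ 1 / 400 := by rw [hs]; linarith [mean_lo_le_one]
  obtain ⟨κ, hκ, hκs, hJ⟩ := exists_small hs0
  have hJs : edgeWeight κ ≤ s := hJ
  refine ⟨s, min (κ ^ 3 / 100) (15 * s), 100 * s, hs0, lt_min (by positivity) (by positivity),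
    by positivity, fun K l h hr => ?_⟩
  set ρ := 6 * volume.real K - 1 with hρdef
  have hρ : 0 ≤ ρ := volume_excess_nonneg h
  have hr1 : ρ ≤ κ ^ 3 / 100 := hr.trans (min_le_left _ _)
  have hr2 : ρ ≤ 15 * s := hr.trans (min_le_right _ _)
  have hρκ : 42 * ρ / κ ≤ κ ^ 2 := by
    rw [div_le_iff₀ hκ]; linarith [pow_pos hκ 3]
  have hl : ∀ i, 0 < l i := fun i => by linarith [(weight_bounds h (by linarith) i).1]
  have hA0 : 0 ≤ excessSum K l κ := Finset.sum_nonneg fun i _ => Finset.sum_nonneg fun k _ =>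
    excess_nonneg h (by linarith) (Fin.succAbove_ne i k).symm
  have hg := gain_sum h (by linarith) hκ (by linarith) (by linarith) hρκ
  have hd := loss_sum h (by linarith) hκ (by linarith)
  have hL := combine hs0 hs1 hκs hJs (m := mean lo) (by rw [hs]; ring) hρ hA0 hg
  set P := l 0 * l 1 * l 2 * l 3 with hP
  have hfin : (1 + 100 * s * ρ) ≤ (6 * volume.real K) * (6 * volume.real (polar K) * P) := by
    have h1 : (1 + ρ) * (1 - (1 - 115 * s) * ρ) ≤
        (6 * volume.real K) * (6 * volume.real (polar K) * P) := by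
      rw [show 6 * volume.real K = 1 + ρ by rw [hρdef]; ring]
      exact mul_le_mul_of_nonneg_left (by linarith) (by linarith)
    nlinarith [mul_le_mul_of_nonneg_left hr2 hρ, mul_nonneg (mul_nonneg hs0.le hρ) hρ]
  have h256 := mul_le_mul_of_nonneg_left (prod_weights_le h hl)
    (mul_nonneg (measureReal_nonneg (μ := volume) (s := K))
      (measureReal_nonneg (μ := volume) (s := polar K)))
  rw [prod0]
  linarith

end Vale.Agent.P248.Three
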