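import Vale.Agent.P248.Equality.Defs
import Mathlib.MeasureTheory.Integral.Pi

/-!
# P248: exponential weights on the octant and on simplicial cones
-/

open MeasureTheory Set Filter Topology Real
open scoped Pointwise Nat

namespace Vale.Agent.P248.Three

/-- The open octant. -/
def Oct : Set R3 := {b | ∀ i, 0 < b i}

/-- The sum of the coordinates. -/
def tot (b : R3) : ℝ := ∑ i, b i

/-- The least coordinate. -/
noncomputable def lo (b : R3) : ℝ := min (b 0) (min (b 1) (b 2))

/-- The weighted integral over the octant. -/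
noncomputable def mean (f : R3 → ℝ) : ℝ := ∫ b in Oct, exp (-tot b) * f b

/-- Being integrable for the weight. -/
def Weighted (f : R3 → ℝ) : Prop := IntegrableOn (fun b => exp (-tot b) * f b) Oct

/-- The part of the octant away from its boundary. -/
def core (κ : ℝ) : Set R3 := {b | ∀ i, κ * tot b ≤ b i}

lemma isOpen_oct : IsOpen Oct := by
  rw [Oct, Set.ofPred_forall]
  exact isOpen_iInter_of_finite fun i => isOpen_lt continuous_const (continuous_apply i)

lemma measurableSet_oct : MeasurableSet Oct := isOpen_oct.measurableSet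

lemma continuous_tot : Continuous tot := by unfold tot; fun_prop

lemma continuous_lo : Continuous lo := by unfold lo; fun_prop

lemma measurableSet_core (κ : ℝ) : MeasurableSet (core κ) := by
  rw [core, Set.ofPred_forall]
  exact MeasurableSet.iInter fun i => measurableSet_le (continuous_tot.measurable.const_mul κ)
    (measurable_pi_apply i)

lemma lo_le (b : R3) (i : Fin 3) : lo b ≤ b i := by
  fin_cases i <;> simp [lo]

lemma lo_pos {b : R3} (hb : b ∈ Oct) : 0 < lo b := lt_min (hb 0) (lt_min (hb 1) (hb 2))

lemma le_tot {b : R3} (hb : b ∈ Oct) (i : Fin 3) : b i ≤ tot b :=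
  Finset.single_le_sum (fun q _ => (hb q).le) (Finset.mem_univ i)

lemma prod_moment (e : Fin 3 → ℕ) :
    Weighted (fun b => ∏ i, b i ^ e i) ∧
      mean (fun b => ∏ i, b i ^ e i) = ∏ i, ((e i) ! : ℝ) := by
  set f : Fin 3 → ℝ → ℝ := fun i x => (Ioi (0 : ℝ)).indicator (fun x => exp (-x) * x ^ e i) x with hf
  have h1 : ∀ i, IntegrableOn (fun x : ℝ => exp (-x) * x ^ e i) (Ioi 0) ∧
      ∫ x in Ioi (0 : ℝ), exp (-x) * x ^ e i = ((e i) ! : ℝ) := fun i => by
    have h1 := Real.GammaIntegral_convergent (s := e i + 1) (by positivity)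
    have h2 := Real.Gamma_eq_integral (s := e i + 1) (by positivity)
    simp only [add_sub_cancel_right, Real.rpow_natCast] at h1 h2
    rw [Real.Gamma_nat_eq_factorial] at h2
    exact ⟨h1, h2.symm⟩
  have e1 : (fun b : R3 => ∏ i, f i (b i)) =
      Oct.indicator fun b => exp (-tot b) * ∏ i, b i ^ e i := by
    funext b
    by_cases hb : b ∈ Oct
    · rw [indicator_of_mem hb]
      have : ∀ i, f i (b i) = exp (-(b i)) * b i ^ e i := fun i => by
        simp [hf, indicator_of_mem, hb i]
      simp only [this, Finset.prod_mul_distrib, ← Real.exp_sum, tot, Finset.sum_neg_distrib]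
    · rw [indicator_of_notMem hb]
      obtain ⟨i, hi⟩ := not_forall.1 hb
      exact Finset.prod_eq_zero (Finset.mem_univ i) (by simp [hf, indicator_of_notMem, hi])
  have hint : ∀ i, Integrable (f i) := fun i => (h1 i).1.integrable_indicator measurableSet_Ioi
  constructor
  · rw [Weighted, ← integrable_indicator_iff measurableSet_oct, ← e1]
    exact Integrable.fintype_prod hint
  · rw [mean, ← integral_indicator measurableSet_oct, ← e1, integral_fintype_prod_volume_eq_prod]
    exact Finset.prod_congr rfl fun i _ => by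
      simp only [hf]
      rw [integral_indicator measurableSet_Ioi, (h1 i).2]

lemma moment_one : Weighted (fun _ => 1) ∧ mean (fun _ => 1) = 1 := by
  simpa using prod_moment 0

lemma moment_coord (k : Fin 3) : Weighted (fun b => b k) ∧ mean (fun b => b k) = 1 := by
  have h := prod_moment (Pi.single k 1)
  have e : (fun b : R3 => ∏ i, b i ^ (Pi.single k 1 : Fin 3 → ℕ) i) = fun b => b k := by
    funext b
    rw [Fin.prod_univ_three]
    fin_cases k <;> simp
  rw [e, Fin.prod_univ_three] at h
  refine ⟨h.1, h.2.trans ?_⟩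
  fin_cases k <;> simp

lemma Weighted.add {f g : R3 → ℝ} (hf : Weighted f) (hg : Weighted g) :
    Weighted fun b => f b + g b := by
  simp only [Weighted, mul_add]; exact Integrable.add hf hg

lemma Weighted.const_mul {f : R3 → ℝ} (hf : Weighted f) (c : ℝ) : Weighted fun b => c * f b := by
  simp only [Weighted, mul_left_comm _ c]; exact Integrable.const_mul hf c

lemma Weighted.sum {f : Fin 3 → R3 → ℝ} (hf : ∀ i, Weighted (f i)) :
    Weighted fun b => ∑ i, f i b := by
  simp only [Weighted, Finset.mul_sum]; exact integrable_finsetSum _ fun i _ => hf i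

lemma Weighted.indicator {f : R3 → ℝ} (hf : Weighted f) {s : Set R3} (hs : MeasurableSet s) :
    Weighted (s.indicator f) := by
  have : (fun b => exp (-tot b) * s.indicator f b) = s.indicator fun b => exp (-tot b) * f b := by
    funext b
    by_cases hb : b ∈ s <;> simp [hb]
  rw [Weighted, this]; exact Integrable.indicator hf hs

lemma mean_add {f g : R3 → ℝ} (hf : Weighted f) (hg : Weighted g) :
    mean (fun b => f b + g b) = mean f + mean g := by
  simp only [mean, mul_add]; exact integral_add hf hg

lemma mean_const_mul (f : R3 → ℝ) (c : ℝ) : mean (fun b => c * f b) = c * mean f := by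
  simp only [mean, mul_left_comm _ c]; exact integral_const_mul c _

lemma mean_sum {f : Fin 3 → R3 → ℝ} (hf : ∀ i, Weighted (f i)) :
    mean (fun b => ∑ i, f i b) = ∑ i, mean (f i) := by
  simp only [mean, Finset.mul_sum]; exact integral_finsetSum _ fun i _ => hf i

lemma mean_mono {f g : R3 → ℝ} (hf : Weighted f) (hg : Weighted g) (h : ∀ b ∈ Oct, f b ≤ g b) :
    mean f ≤ mean g :=
  setIntegral_mono_on hf hg measurableSet_oct fun b hb =>
    mul_le_mul_of_nonneg_left (h b hb) (exp_pos _).le

lemma weighted_tot : Weighted tot := Weighted.sum fun i => (moment_coord i).1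

lemma weighted_lo : Weighted lo := by
  refine Integrable.mono' (moment_coord 0).1
    ((continuous_tot.neg.rexp.mul continuous_lo).aestronglyMeasurable) ?_
  filter_upwards [ae_restrict_mem measurableSet_oct] with b hb
  rw [norm_mul, Real.norm_of_nonneg (exp_pos _).le, Real.norm_of_nonneg (lo_pos hb).le]
  exact mul_le_mul_of_nonneg_left (lo_le b 0) (exp_pos _).le

lemma mean_lo_pos : 0 < mean lo := by
  refine (setIntegral_pos_iff_support_of_nonneg_ae ?_ weighted_lo).2 ?_
  · filter_upwards [ae_restrict_mem measurableSet_oct] with b hb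
    exact mul_nonneg (exp_pos _).le (lo_pos hb).le
  · refine lt_of_lt_of_le (isOpen_oct.measure_pos volume ⟨fun _ => 1, fun _ => one_pos⟩) ?_
    exact measure_mono fun b hb => ⟨(mul_pos (exp_pos _) (lo_pos hb)).ne', hb⟩

lemma mean_lo_le_one : mean lo ≤ 1 :=
  (mean_mono weighted_lo (moment_coord 0).1 fun b _ => lo_le b 0).trans (moment_coord 0).2.le

/-- The weight near the boundary is small. -/
lemma exists_small {e : ℝ} (he : 0 < e) :
    ∃ κ : ℝ, 0 < κ ∧ κ ≤ e ∧ mean ((core κ)ᶜ.indicator tot) ≤ e := by
  set k : ℕ → ℝ := fun n => 1 / (n + 1) with hk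
  have hlim : Tendsto (fun n => mean ((core (k n))ᶜ.indicator tot)) atTop (𝓝 0) := by
    have := tendsto_integral_of_dominated_convergence (μ := volume.restrict Oct)
      (F := fun n b => exp (-tot b) * (core (k n))ᶜ.indicator tot b) (f := fun _ => (0 : ℝ))
      (fun b => exp (-tot b) * tot b)
      (fun n => (weighted_tot.indicator (measurableSet_core _).compl).aestronglyMeasurable)
      weighted_tot
      (fun n => by
        filter_upwards [ae_restrict_mem measurableSet_oct] with b hb
        have ht : 0 ≤ tot b := (hb 0).le.trans (le_tot hb 0)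
        rw [norm_mul, Real.norm_of_nonneg (exp_pos _).le]
        refine mul_le_mul_of_nonneg_left ?_ (exp_pos _).le
        by_cases hc : b ∈ (core (k n))ᶜ
        · rw [indicator_of_mem hc, Real.norm_of_nonneg ht]
        · rw [indicator_of_notMem hc, norm_zero]; exact ht)
      (by
        filter_upwards [ae_restrict_mem measurableSet_oct] with b hb
        have ht : 0 < tot b := (hb 0).trans_le (le_tot hb 0)
        refine tendsto_const_nhds.congr' ?_
        have hev := (tendsto_one_div_add_atTop_nhds_zero_nat (𝕜 := ℝ)).eventually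
          (ge_mem_nhds (div_pos (lo_pos hb) ht))
        filter_upwards [hev] with n hn
        rw [indicator_of_notMem, mul_zero]
        simp only [mem_compl_iff, not_not]
        intro i
        refine le_trans ?_ (lo_le b i)
        rwa [← le_div_iff₀ ht])
    simpa [mean] using this
  obtain ⟨n, hn, hn'⟩ := ((hlim.eventually (ge_mem_nhds he)).and
    ((tendsto_one_div_add_atTop_nhds_zero_nat (𝕜 := ℝ)).eventually (ge_mem_nhds he))).exists
  exact ⟨k n, by simp only [hk]; positivity, hn', hn⟩

/-- The cone spanned by three vectors. -/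
def coneOf (P : Fin 3 → R3) : Set R3 := (fun b : R3 => ∑ k, b k • P k) '' Oct

lemma toLin_eq_sum (P : Fin 3 → R3) (b : R3) :
    Matrix.toLin' (Matrix.of P).transpose b = ∑ k, b k • P k := by
  funext i
  simp [Matrix.toLin'_apply, Matrix.mulVec, dotProduct, Finset.sum_apply, mul_comm]

lemma coneOf_integral {P : Fin 3 → R3} (hP : (Matrix.of P).det ≠ 0) (f : R3 → ℝ) :
    ∫ x in coneOf P, f x = |(Matrix.of P).det| * ∫ b in Oct, f (∑ k, b k • P k) := by
  set L : R3 →L[ℝ] R3 := LinearMap.toContinuousLinearMap (Matrix.toLin' (Matrix.of P).transpose)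
  have hL : ∀ b, L b = ∑ k, b k • P k := toLin_eq_sum P
  have hd : L.det = (Matrix.of P).det := by
    simp [L, ContinuousLinearMap.det, Matrix.det_transpose]
  have hinj : Function.Injective L := by
    intro x y h
    have hu : IsUnit (Matrix.of P).transpose := by
      rw [Matrix.isUnit_iff_isUnit_det, Matrix.det_transpose]; exact hP.isUnit
    exact Matrix.mulVec_injective_iff_isUnit.2 hu (by simpa [L] using h)
  have h := integral_image_eq_integral_abs_det_fderiv_smul volume measurableSet_oct
    (f := L) (f' := fun _ => L) (fun b _ => L.hasFDerivWithinAt) hinj.injOn f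
  rw [show coneOf P = L '' Oct from image_congr fun b _ => (hL b).symm, h]
  simp only [hd, smul_eq_mul, hL]
  rw [integral_const_mul]

lemma coneOf_integrable {K : Set R3} (hK : Good K) {P : Fin 3 → R3}
    (hP : (Matrix.of P).det ≠ 0) :
    IntegrableOn (fun b : R3 => exp (-gauge K (∑ k, b k • P k))) Oct := by
  set L : R3 →L[ℝ] R3 := LinearMap.toContinuousLinearMap (Matrix.toLin' (Matrix.of P).transpose)
  have hL : ∀ b, L b = ∑ k, b k • P k := toLin_eq_sum P
  have hd : L.det = (Matrix.of P).det := by
    simp [L, ContinuousLinearMap.det, Matrix.det_transpose]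
  have hinj : Function.Injective L := by
    intro x y h
    have hu : IsUnit (Matrix.of P).transpose := by
      rw [Matrix.isUnit_iff_isUnit_det, Matrix.det_transpose]; exact hP.isUnit
    exact Matrix.mulVec_injective_iff_isUnit.2 hu (by simpa [L] using h)
  have h := (integrableOn_image_iff_integrableOn_abs_det_fderiv_smul volume measurableSet_oct
    (f := L) (f' := fun _ => L) (fun b _ => L.hasFDerivWithinAt) hinj.injOn
    (fun x => exp (-gauge K x))).1 hK.integrableOn_cone.integrableOn
  simp only [smul_eq_mul, hL, hd] at h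
  exact (integrable_const_mul_iff (isUnit_iff_ne_zero.2 (abs_ne_zero.2 hP)) _).1 h

lemma measurableSet_coneOf {P : Fin 3 → R3} (hP : (Matrix.of P).det ≠ 0) :
    MeasurableSet (coneOf P) := by
  set L := Matrix.toLin' (Matrix.of P).transpose
  have hinj : Function.Injective L := by
    intro x y h
    have hu : IsUnit (Matrix.of P).transpose := by
      rw [Matrix.isUnit_iff_isUnit_det, Matrix.det_transpose]; exact hP.isUnit
    exact Matrix.mulVec_injective_iff_isUnit.2 hu (by simpa [L] using h)
  have hsur : Function.Surjective L := LinearMap.surjective_of_injective hinj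
  rw [show coneOf P = L '' Oct from image_congr fun b _ => (toLin_eq_sum P b).symm]
  exact ((LinearMap.toContinuousLinearMap L).isOpenMap hsur _ isOpen_oct).measurableSet

variable {K : Set R3}

/-- A linear bound on the gauge in a cone bounds the integral below. -/
lemma cone_lower (hK : Good K) {P : Fin 3 → R3} (hP : (Matrix.of P).det ≠ 0) {ψ : R3 → ℝ}
    (hψ : Weighted ψ) (hg : ∀ b ∈ Oct, gauge K (∑ k, b k • P k) ≤ tot b - ψ b) :
    |(Matrix.of P).det| * (1 + mean ψ) ≤ ∫ x in coneOf P, exp (-gauge K x) := by
  rw [coneOf_integral hP]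
  refine mul_le_mul_of_nonneg_left ?_ (abs_nonneg _)
  have hm : 1 + mean ψ = ∫ b in Oct, exp (-tot b) * (1 + ψ b) := by
    rw [← mean, mean_add moment_one.1 hψ, moment_one.2]
  rw [hm]
  refine setIntegral_mono_on (moment_one.1.add hψ) ?_ measurableSet_oct fun b hb => ?_
  · exact coneOf_integrable hK hP
  · calc exp (-tot b) * (1 + ψ b) ≤ exp (-tot b) * exp (ψ b) :=
          mul_le_mul_of_nonneg_left (by linarith [add_one_le_exp (ψ b)]) (exp_pos _).le
      _ ≤ exp (-gauge K (∑ k, b k • P k)) := by
          rw [← exp_add]; exact exp_le_exp.2 (by linarith [hg b hb])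

/-- Disjoint cones lie in the space. -/
lemma sum_cones_le (hK : Good K) {P : Fin 4 → Fin 3 → R3} (hP : ∀ j, (Matrix.of (P j)).det ≠ 0)
    (hd : Pairwise fun i j => Disjoint (coneOf (P i)) (coneOf (P j))) :
    ∑ j, ∫ x in coneOf (P j), exp (-gauge K x) ≤ 6 * volume.real K := by
  rw [← integral_iUnion_fintype (fun j => measurableSet_coneOf (hP j)) hd
    (fun j => hK.integrableOn_cone.integrableOn)]
  refine (setIntegral_le_integral hK.integrableOn_cone
    (Eventually.of_forall fun x => (exp_pos _).le)).trans (le_of_eq ?_)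
  rw [hK.integral_univ]; norm_num [Nat.factorial]

lemma gauge_sum_le (hK : Good K) {ι : Type*} (s : Finset ι) (c : ι → ℝ) (p : ι → R3)
    (hc : ∀ i ∈ s, 0 ≤ c i) :
    gauge K (∑ i ∈ s, c i • p i) ≤ ∑ i ∈ s, c i * gauge K (p i) := by
  refine (Finset.le_sum_of_subadditive (gauge K) gauge_zero.le
    (gauge_add_le hK.conv hK.absorbs) _ _).trans (Finset.sum_le_sum fun i hi => ?_)
  rw [gauge_smul_of_nonneg (hc i hi), smul_eq_mul]

end Vale.Agent.P248.Three
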