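import Vale.Agent.P248.Equality.Defs
import Vale.Agent.P248.Three.Main

/-!
# P248: products below a level persist along motions until the body is near a tetrahedron
-/

open MeasureTheory Set Filter Topology
open scoped Pointwise

namespace Vale.Agent.P248.Three

variable {m k : ℕ} {v : Fin m → R3} {a : Fin k → R3} {α : Fin m → ℝ} {r : Fin k → R3}

/-- The times at which every centre gives a product of at least `c`. -/
def highSet (v : Fin m → R3) (α : Fin m → ℝ) (c : ℝ) : Set ℝ :=
  {t | ∀ z ∈ interior (Kt v α t), c ≤ prod0 ((fun x => x - z) '' Kt v α t)}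

lemma vol_sub (w : R3) (A : Set R3) : volume.real ((fun x => x - w) '' A) = volume.real A := by
  simp only [sub_eq_add_neg, image_add_right, measureReal_def, measure_preimage_add_right]

lemma good_sub {A : Set R3} (hc : IsCompact A) (hv : Convex ℝ A) {z : R3} (hz : z ∈ interior A) :
    Good ((fun x => x - z) '' A) where
  cpt := hc.image (by fun_prop)
  conv := by
    have := hv.translate (-z)
    simpa [sub_eq_neg_add] using this
  int := by
    have h := (Homeomorph.subRight z).image_interior A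
    have : (0 : R3) ∈ Homeomorph.subRight z '' interior A := ⟨z, hz, by simp⟩
    rw [h] at this
    exact this

lemma vol_pos_of_int {A : Set R3} (hc : IsCompact A) (hi : (interior A).Nonempty) :
    0 < volume.real A := by
  obtain ⟨z, hz⟩ := hi
  exact ENNReal.toReal_pos (Measure.measure_pos_of_mem_nhds volume
    (mem_interior_iff_mem_nhds.1 hz)).ne' hc.measure_lt_top.ne

lemma Kt_isCompact (v : Fin m → R3) (α : Fin m → ℝ) (t : ℝ) : IsCompact (Kt v α t) :=
  (finite_range _).isCompact_convexHull ℝ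

lemma vt_combo (lam : Fin m → ℝ) (s t : ℝ) :
    (∑ i, lam i • vt v α s i) + ((t - s) * ∑ i, lam i * α i) • e3 = ∑ i, lam i • vt v α t i := by
  rw [Motion.sum_vt, Motion.sum_vt, add_assoc, ← add_smul]
  congr 2
  ring

/-- The set of high times is closed under midpoints. -/
lemma Motion.highSet_mid {T : ℝ} (M : Motion v a α r T)
    (hne : ¬ ∃ (c : R3) (c₀ : ℝ), ∀ i, α i = dot c (v i) + c₀) {c p q : ℝ}
    (hp : |p| ≤ T) (hq : |q| ≤ T) (hpc : p ∈ highSet v α c) (hqc : q ∈ highSet v α c) :
    (p + q) / 2 ∈ highSet v α c := by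
  intro z hz
  set μ := (p + q) / 2 with hμ
  have hμT : |μ| ≤ T := by
    have := abs_le.1 hp; have := abs_le.1 hq
    rw [hμ, abs_le]; constructor <;> linarith
  have hvolm : 2 * volume.real (Kt v α μ) = volume.real (Kt v α q) + volume.real (Kt v α p) := by
    have h1 := M.volume_affine hμT
    have h2 := M.volume_affine hp
    have h3 := M.volume_affine hq
    refine mul_left_cancel₀ (show (2 * T) ≠ 0 by linarith [M.pos]) ?_
    rw [hμ] at h1 ⊢
    linarith
  have hg := good_sub (Kt_isCompact v α μ) (convex_convexHull ℝ _) hz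
  have hsh : Shadow ((fun x => x - z) '' Kt v α q) ((fun x => x - z) '' Kt v α μ)
      ((fun x => x - z) '' Kt v α p) := by
    rintro _ ⟨x, hx, rfl⟩
    obtain ⟨lam, l0, l1, rfl⟩ := mem_hull_iff.1 hx
    refine ⟨(q - μ) * ∑ i, lam i * α i, ⟨_, mem_hull_iff.2 ⟨lam, l0, l1, rfl⟩, ?_⟩,
      ⟨_, mem_hull_iff.2 ⟨lam, l0, l1, rfl⟩, ?_⟩⟩
    · show (∑ i, lam i • vt v α q i) - z = _
      rw [← vt_combo lam μ q, add_sub_right_comm]
    · show (∑ i, lam i • vt v α p i) - z = _
      rw [← vt_combo lam μ p, show p - μ = -(q - μ) by rw [hμ]; ring, neg_mul, neg_smul,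
        ← sub_eq_add_neg, sub_right_comm]
  have hend : ∀ t : ℝ, IsCompact ((fun x => x - z) '' Kt v α t) ∧
      Convex ℝ ((fun x => x - z) '' Kt v α t) ∧
      (interior ((fun x => x - z) '' Kt v α t)).Nonempty ∧
      ∀ w ∈ interior ((fun x => x - z) '' Kt v α t), z + w ∈ interior (Kt v α t) := by
    intro t
    have hh := (Homeomorph.subRight z).image_interior (Kt v α t)
    refine ⟨(Kt_isCompact v α t).image (by fun_prop), ?_, ?_, fun w hw => ?_⟩
    · have := (convex_convexHull ℝ (range (vt v α t))).translate (-z)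
      simpa [Kt, sub_eq_neg_add] using this
    · exact hh ▸ (M.interior_Kt hne).image _
    · rw [show ((fun x => x - z) '' Kt v α t) = Homeomorph.subRight z '' Kt v α t from rfl,
        ← hh] at hw
      obtain ⟨y, hy, rfl⟩ := hw
      simpa using hy
  obtain ⟨hqk, hqv, hqi, hqz⟩ := hend q
  obtain ⟨hpk, hpv, hpi, hpz⟩ := hend p
  obtain ⟨zr, hzr, zs, hzs, hpol⟩ := shadow_centres hqk hqv hqi hg hpk hpv hpi hsh
  have hshift : ∀ (A : Set R3) (w : R3),
      (fun x => x - w) '' ((fun x => x - z) '' A) = (fun x => x - (z + w)) '' A := fun A w => by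
    rw [image_image]; simp [sub_sub]
  rw [hshift, hshift] at hpol
  have hb : ∀ t w, (z + w ∈ interior (Kt v α t)) → t ∈ highSet v α c →
      c * (volume.real (polar ((fun x => x - (z + w)) '' Kt v α t)))⁻¹ ≤
        volume.real (Kt v α t) := fun t w hw ht => by
    have := ht _ hw
    rw [prod0, vol_sub] at this
    have hgw := good_sub (Kt_isCompact v α t) (convex_convexHull ℝ _) hw
    rw [← div_eq_mul_inv, div_le_iff₀ (vol_pos_of_int hgw.good_polar.cpt ⟨0, hgw.good_polar.int⟩)]
    exact this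
  have h1 := hb q zr (hqz zr hzr) hqc
  have h2 := hb p zs (hpz zs hzs) hpc
  have hP : 0 < volume.real (polar ((fun x => x - z) '' Kt v α μ)) :=
    vol_pos_of_int hg.good_polar.cpt ⟨0, hg.good_polar.int⟩
  rw [prod0, vol_sub]
  rcases le_or_gt c 0 with hc | hc
  · exact hc.trans (mul_nonneg measureReal_nonneg hP.le)
  have h3 : c * (volume.real (polar ((fun x => x - z) '' Kt v α μ)))⁻¹ ≤
      volume.real (Kt v α μ) := by
    linarith [mul_le_mul_of_nonneg_left hpol hc.le]
  rwa [← div_eq_mul_inv, div_le_iff₀ hP] at h3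

/-- A midpoint-closed set contains all dyadic combinations of two of its points. -/
lemma dyadic_mem {S B : Set ℝ} (hS : Convex ℝ S) (hBS : B ⊆ S)
    (hmid : ∀ p ∈ B, ∀ q ∈ B, (p + q) / 2 ∈ B) {x y : ℝ} (hx : x ∈ B) (hy : y ∈ B) :
    ∀ (N p : ℕ), p ≤ 2 ^ N → x + (p : ℝ) / 2 ^ N * (y - x) ∈ B := by
  intro N
  induction N with
  | zero =>
    intro p hp
    interval_cases p <;> simp [hx, hy]
  | succ N ih =>
    intro p hp
    rw [pow_succ] at hp
    rcases le_total p (2 ^ N) with h | h
    · convert hmid _ hx _ (ih p h) using 1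
      rw [pow_succ]; field_simp; ring
    · convert hmid _ hy _ (ih (p - 2 ^ N) (by omega)) using 1
      rw [Nat.cast_sub h, pow_succ, Nat.cast_pow, Nat.cast_ofNat]; field_simp; ring

/-- An interval and a point on opposite sides of zero put zero into a midpoint-closed set. -/
lemma zero_mem_of_sides {B : Set ℝ} (hmid : ∀ p ∈ B, ∀ q ∈ B, (p + q) / 2 ∈ B) {u w a₀ b : ℝ}
    (hu : u < a₀) (hw : a₀ < w) (hI : Ioo u w ⊆ B) (hb : b ∈ B) (hab : a₀ * b < 0) :
    (0 : ℝ) ∈ B := by
  have hne : b - a₀ ≠ 0 := fun h => by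
    rw [sub_eq_zero.1 h] at hab; linarith [mul_self_nonneg a₀]
  set q₀ := -a₀ / (b - a₀) with hq₀
  have hq : 0 < q₀ ∧ q₀ < 1 := by
    rcases mul_neg_iff.1 hab with ⟨ha, hb'⟩ | ⟨ha, hb'⟩
    · exact ⟨div_pos_of_neg_of_neg (by linarith) (by linarith),
        (div_lt_one_of_neg (by linarith)).2 (by linarith)⟩
    · exact ⟨div_pos (by linarith) (by linarith), (div_lt_one (by linarith)).2 (by linarith)⟩
  have hval : -q₀ * b / (1 - q₀) = a₀ := by
    have : (1 : ℝ) - q₀ ≠ 0 := by linarith [hq.2]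
    rw [div_eq_iff this, hq₀]; field_simp; ring
  have hcont : ∀ᶠ q in 𝓝 q₀, -q * b / (1 - q) ∈ Ioo u w ∧ q < 1 := by
    have hc : ContinuousAt (fun q : ℝ => -q * b / (1 - q)) q₀ :=
      (by fun_prop : Continuous fun q : ℝ => -q * b).continuousAt.div (by fun_prop)
        (by linarith [hq.2])
    exact (hc.eventually_mem (isOpen_Ioo.mem_nhds (by rw [hval]; exact ⟨hu, hw⟩))).and
      (gt_mem_nhds hq.2)
  have hlim : Tendsto (fun N : ℕ => (⌊q₀ * 2 ^ N⌋₊ : ℝ) / 2 ^ N) atTop (𝓝 q₀) :=
    (tendsto_nat_floor_mul_div_atTop hq.1.le).comp (tendsto_pow_atTop_atTop_of_one_lt one_lt_two)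
  obtain ⟨N, hN, hN1⟩ := (hlim.eventually hcont).exists
  set q := (⌊q₀ * 2 ^ N⌋₊ : ℝ) / 2 ^ N with hqdef
  have hp : ⌊q₀ * 2 ^ N⌋₊ ≤ 2 ^ N := by
    refine Nat.floor_le_of_le ?_
    push_cast
    exact mul_le_of_le_one_left (by positivity) hq.2.le
  have h := dyadic_mem convex_univ (subset_univ _) hmid (hI hN) hb N _ hp
  rw [← hqdef, show -q * b / (1 - q) + q * (b - -q * b / (1 - q)) = 0 by
    have : (1 : ℝ) - q ≠ 0 := by linarith
    field_simp; ring] at h
  exact h

lemma maxTet_continuous (v : Fin m → R3) (α : Fin m → ℝ) :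
    Continuous fun t => maxTet (Kt v α t) := by
  set S : Set (Fin 4 → Fin m → ℝ) := Set.pi univ fun _ => stdSimplex ℝ (Fin m)
  have e : ∀ t, tetVol '' Set.pi univ (fun _ : Fin 4 => Kt v α t) =
      (fun lam : Fin 4 → Fin m → ℝ => tetVol fun p => ∑ i, lam p i • vt v α t i) '' S := by
    intro t
    ext y
    constructor
    · rintro ⟨w, hw, rfl⟩
      choose lam l0 l1 l2 using fun p => mem_hull_iff.1 (hw p trivial)
      exact ⟨lam, fun p _ => ⟨l0 p, l1 p⟩, by simp [l2]⟩
    · rintro ⟨lam, hl, rfl⟩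
      exact ⟨_, fun p _ => mem_hull_iff.2 ⟨lam p, (hl p trivial).1, (hl p trivial).2, rfl⟩, rfl⟩
  simp only [maxTet, e]
  refine IsCompact.continuous_sSup (isCompact_univ_pi fun _ => isCompact_stdSimplex (𝕜 := ℝ) (ι := Fin m)) ?_
  simp only [tetVol, vt]
  refine (Continuous.abs (Continuous.matrix_det (continuous_matrix fun q l => ?_))).div_const 6
  simp only [Finset.sum_apply, Pi.add_apply, Pi.smul_apply, smul_eq_mul]
  fun_prop

/-- One step down: near a tetrahedron if the product is below the level. -/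
lemma path_step {c θ ro : ℝ} (hθr : θ < ro) (hr1 : ro < 1)
    (hband : ∀ K : Set R3, Good K → Near ro K → prod0 K < c → Near θ K)
    (hshift : ∀ (K : Set R3) (z : R3), maxTet ((fun x => x - z) '' K) = maxTet K)
    (h : Dual v a) (hv : Irred v) (ha : Irred a) (hmk : m ≤ k)
    (hcase : (∃ j, a j 2 = 0 ∧ 4 ≤ (contacts v a j).card) ∨
      (5 ≤ m ∧ ∀ j, (contacts v a j).card = 3))
    (ih : ∀ (m' k' : ℕ) (v' : Fin m' → R3) (a' : Fin k' → R3), Dual v' a' → m' + k' < m + k →
      prod0 (convexHull ℝ (range v')) < c → Near θ (convexHull ℝ (range v')))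
    (hlt : prod0 (convexHull ℝ (range v)) < c) :
    Near θ (convexHull ℝ (range v)) := by
  by_contra hnot
  have hnr : ¬ Near ro (convexHull ℝ (range v)) := fun hn => hnot (hband _ h.good hn hlt)
  obtain ⟨α₀, r₀, hr, hne₀⟩ := exists_speed h hv ha hmk hcase
  obtain ⟨α, r, T, M, hne, htight⟩ := exists_motion h hr hne₀
  have hsp := fun j => h.span_contacts ha j
  have hnear : ∀ (θ' : ℝ) (A : Set R3) (z : R3),
      Near θ' ((fun x => x - z) '' A) ↔ Near θ' A := fun θ' A z => by
    unfold Near; rw [hshift, vol_sub]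
  have h0 : (0 : ℝ) ∉ highSet v α c := fun h0 => by
    have h1 := h0 0 (by rw [Kt_zero]; exact h.good.int)
    simp only [Kt_zero, sub_zero, image_id'] at h1
    linarith
  set L : ℝ → ℝ := fun t =>
    ((T + t) * volume.real (Kt v α T) + (T - t) * volume.real (Kt v α (-T))) / (2 * T) with hL
  have hLc : Continuous L := by rw [hL]; fun_prop
  have hLe : ∀ t, |t| ≤ T → volume.real (Kt v α t) = L t := fun t ht => by
    rw [hL]; simp only
    rw [← M.volume_affine ht, mul_div_cancel_left₀ _ (by linarith [M.pos])]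
  have hpos : ∀ t, |t| ≤ T → 0 < L t := fun t ht => by
    rw [← hLe t ht]; exact vol_pos_of_int (Kt_isCompact v α t) (M.interior_Kt hne)
  have side : ∀ e ∈ ({T, -T} : Set ℝ), e ∈ highSet v α c ∨
      ∃ u w t₁, u < t₁ ∧ t₁ < w ∧ 0 < t₁ * e ∧
        Ioo u w ⊆ highSet v α c ∩ Icc (-T) T := by
    intro e he
    by_cases heB : e ∈ highSet v α c
    · exact Or.inl heB
    right
    have heT : |e| = T := by
      rcases he with rfl | rfl
      · exact abs_of_pos M.pos
      · rw [abs_neg, abs_of_pos M.pos]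
    simp only [highSet, mem_ofPred_eq, not_forall, not_le, exists_prop] at heB
    obtain ⟨z, hz, hzc⟩ := heB
    obtain ⟨i₀, j₀, hj₀, hlt₀, hgap⟩ := htight e he
    obtain ⟨m', k', v', a', hD, hsmall, he'⟩ := M.exists_smaller hsp hne heT.le hj₀ hlt₀ hgap hz
    have hN : Near θ (Kt v α e) := by
      have h1 := ih m' k' v' a' hD hsmall (by rwa [he'])
      rwa [he', hnear] at h1
    set g : ℝ → ℝ := fun t => maxTet (Kt v α t) - (1 - (ro + θ) / 2) * L t with hg
    have hgc : Continuous g := (maxTet_continuous v α).sub (continuous_const.mul hLc)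
    have hg0 : g 0 < 0 := by
      unfold Near at hnr
      rw [not_lt] at hnr
      have e0 := hLe 0 (by rw [abs_zero]; exact M.pos.le)
      rw [Kt_zero] at e0
      simp only [hg, Kt_zero]
      rw [e0] at hnr
      nlinarith [hpos 0 (by rw [abs_zero]; exact M.pos.le)]
    have hge : 0 < g e := by
      unfold Near at hN
      rw [hLe e heT.le] at hN
      simp only [hg]
      nlinarith [hpos e heT.le]
    obtain ⟨t₁, ht₁, hgt⟩ := intermediate_value_uIcc (a := 0) (b := e) hgc.continuousOn
      (show (0 : ℝ) ∈ uIcc (g 0) (g e) from Icc_subset_uIcc ⟨hg0.le, hge.le⟩)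
    have ht0 : t₁ ≠ 0 := fun h => by rw [h] at hgt; linarith
    have hte : t₁ ≠ e := fun h => by rw [h] at hgt; linarith
    have hs : 0 < t₁ * e ∧ |t₁| < T := by
      rw [mem_uIcc] at ht₁
      rcases ht₁ with ⟨h1, h2⟩ | ⟨h1, h2⟩
      · have : 0 < t₁ := lt_of_le_of_ne h1 (Ne.symm ht0)
        have : t₁ < e := lt_of_le_of_ne h2 hte
        exact ⟨mul_pos (by linarith) (by linarith), by
          rw [abs_of_pos (by linarith)]; linarith [le_abs_self e]⟩
      · have : t₁ < 0 := lt_of_le_of_ne h2 ht0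
        have : e < t₁ := lt_of_le_of_ne h1 (Ne.symm hte)
        exact ⟨mul_pos_of_neg_of_neg (by linarith) (by linarith), by
          rw [abs_of_neg (by linarith)]; linarith [neg_le_abs e]⟩
    have hev : ∀ᶠ t in 𝓝 t₁, |t| < T ∧ (1 - ro) * L t < maxTet (Kt v α t) ∧
        maxTet (Kt v α t) < (1 - θ) * L t := by
      have hL1 := hpos t₁ hs.2.le
      have hval : maxTet (Kt v α t₁) = (1 - (ro + θ) / 2) * L t₁ := sub_eq_zero.1 hgt
      refine (continuous_abs.continuousAt.eventually_lt continuousAt_const hs.2).and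
        (((continuous_const.mul hLc).continuousAt.eventually_lt
          (maxTet_continuous v α).continuousAt ?_).and
        ((maxTet_continuous v α).continuousAt.eventually_lt
          (continuous_const.mul hLc).continuousAt ?_))
      · show (1 - ro) * L t₁ < _
        rw [hval]; nlinarith
      · show _ < (1 - θ) * L t₁
        rw [hval]; nlinarith
    obtain ⟨ε, hε, hball⟩ := Metric.eventually_nhds_iff.1 hev
    refine ⟨t₁ - ε, t₁ + ε, t₁, by linarith, by linarith, hs.1, fun t ht => ?_⟩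
    obtain ⟨hT1, hin1, hin2⟩ := hball (show dist t t₁ < ε by
      rw [Real.dist_eq, abs_lt]; constructor <;> linarith [ht.1, ht.2])
    refine ⟨fun y hy => ?_, abs_le.1 hT1.le⟩
    by_contra hyc
    push Not at hyc
    have h1 := hband _ (good_sub (Kt_isCompact v α t) (convex_convexHull ℝ _) hy)
      (by rw [hnear]; unfold Near; rw [hLe t hT1.le]; exact hin1) hyc
    rw [hnear] at h1
    unfold Near at h1
    rw [hLe t hT1.le] at h1
    linarith
  set B := highSet v α c ∩ Icc (-T) T with hB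
  have hmid : ∀ p ∈ B, ∀ q ∈ B, (p + q) / 2 ∈ B := fun p hp q hq =>
    ⟨M.highSet_mid hne (abs_le.2 hp.2) (abs_le.2 hq.2) hp.1 hq.1,
      by constructor <;> linarith [hp.2.1, hp.2.2, hq.2.1, hq.2.2]⟩
  have hTp : T ∈ Icc (-T) T := ⟨by linarith [M.pos], le_rfl⟩
  have hTm : -T ∈ Icc (-T) T := ⟨le_rfl, by linarith [M.pos]⟩
  rcases side T (Or.inl rfl) with hp | ⟨u, w, t, hu, hw, hs, hI⟩ <;>
    rcases side (-T) (Or.inr rfl) with hm | ⟨u', w', t', hu', hw', hs', hI'⟩
  · have := M.highSet_mid hne (abs_of_pos M.pos).le (by rw [abs_neg, abs_of_pos M.pos]) hp hm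
    rw [add_neg_cancel, zero_div] at this
    exact h0 this
  · refine h0 (zero_mem_of_sides hmid hu' hw' hI' (b := T) ⟨hp, hTp⟩ ?_).1
    linarith
  · refine h0 (zero_mem_of_sides hmid hu hw hI (b := -T) ⟨hm, hTm⟩ ?_).1
    linarith
  · have h1 : t' ∈ B := hI' ⟨hu', hw'⟩
    refine h0 (zero_mem_of_sides hmid hu hw hI h1 ?_).1
    have hTT := M.pos
    rcases mul_pos_iff.1 hs with ⟨a1, -⟩ | ⟨-, a2⟩
    · rcases mul_pos_iff.1 hs' with ⟨-, b2⟩ | ⟨b1, -⟩
      · linarith
      · exact mul_neg_of_pos_of_neg a1 b1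
    · linarith

/-- Every body given by finitely many points and half-spaces. -/
theorem near_pairs {c θ r : ℝ} (hθr : θ < r) (hr : r < 1)
    (hband : ∀ K : Set R3, Good K → Near r K → prod0 K < c → Near θ K)
    (hpol : ∀ K : Set R3, Good K → Near θ K → prod0 K < c → Near r (polar K))
    (htet : ∀ v : Fin 4 → R3, Good (convexHull ℝ (range v)) → Near θ (convexHull ℝ (range v)))
    (hshift : ∀ (K : Set R3) (z : R3), maxTet ((fun x => x - z) '' K) = maxTet K)
    (hmap : ∀ (T : R3 ≃ₗ[ℝ] R3) (K : Set R3), Near θ (T '' K) ↔ Near θ K) :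
    ∀ (N m k : ℕ) (v : Fin m → R3) (a : Fin k → R3), Dual v a → m + k = N →
      prod0 (convexHull ℝ (range v)) < c → Near θ (convexHull ℝ (range v)) := by
  intro N
  induction N using Nat.strong_induction_on with
  | _ N ih =>
  intro m k v a h hN hlt
  have ih' : ∀ (m' k' : ℕ) (v' : Fin m' → R3) (a' : Fin k' → R3), Dual v' a' → m' + k' < N →
      prod0 (convexHull ℝ (range v')) < c → Near θ (convexHull ℝ (range v')) :=
    fun m' k' v' a' h' hsm hl => ih _ hsm m' k' v' a' h' rfl hl
  by_cases hv : Irred v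
  swap
  · simp only [Irred, not_forall, not_not] at hv
    obtain ⟨i, hi⟩ := hv
    obtain ⟨n, rfl⟩ : ∃ n, m = n + 1 := ⟨m - 1, by have := i.isLt; omega⟩
    obtain ⟨hD, he⟩ := h.drop_vertex hi
    have := ih' _ _ _ _ hD (by omega) (by rwa [he])
    rwa [he] at this
  by_cases ha : Irred a
  swap
  · simp only [Irred, not_forall, not_not] at ha
    obtain ⟨j, hj⟩ := ha
    obtain ⟨n, rfl⟩ : ∃ n, k = n + 1 := ⟨k - 1, by have := j.isLt; omega⟩
    exact ih' _ _ _ _ (h.drop_facet hj) (by omega) hlt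
  have main : ∀ {m k : ℕ} (v : Fin m → R3) (a : Fin k → R3), Dual v a → Irred v → Irred a →
      m ≤ k → m + k = N → prod0 (convexHull ℝ (range v)) < c →
      Near θ (convexHull ℝ (range v)) := by
    intro m k v a h hv ha hmk hN hlt
    rcases h.four_le.eq_or_lt with h4 | h5
    · subst h4
      exact htet v h.good
    have ih' : ∀ (m' k' : ℕ) (v' : Fin m' → R3) (a' : Fin k' → R3), Dual v' a' →
        m' + k' < m + k → prod0 (convexHull ℝ (range v')) < c →
        Near θ (convexHull ℝ (range v')) :=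
      fun m' k' v' a' h' hsm hl => ih _ (hN ▸ hsm) m' k' v' a' h' rfl hl
    by_cases hbig : ∃ j, 4 ≤ (contacts v a j).card
    · obtain ⟨j, hj⟩ := hbig
      obtain ⟨T, hT⟩ := exists_flatten (a j)
      have := path_step hθr hr hband hshift (h.map T) (hv.map T) (ha.mapFacet T) hmk
        (Or.inl ⟨j, hT, by rw [contacts_map]; exact hj⟩) ih'
        (by rwa [hull_map, prod0, vol_prod_image])
      rwa [hull_map, hmap] at this
    · push Not at hbig
      refine path_step hθr hr hband hshift h hv ha hmk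
        (Or.inr ⟨h5, fun j => le_antisymm (Nat.le_of_lt_succ (hbig j)) ?_⟩) ih' hlt
      have hs := h.span_contacts ha j
      have h1 := finrank_span_finset_le_card (R := ℝ) ((contacts v a j).image v)
      rw [Finset.coe_image, Set.finrank, hs, finrank_top, Module.finrank_pi, Fintype.card_fin] at h1
      exact h1.trans Finset.card_image_le
  rcases le_total m k with hmk | hkm
  · exact main v a h hv ha hmk hN hlt
  · have e : prod0 (convexHull ℝ (range a)) = prod0 (convexHull ℝ (range v)) := by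
      rw [prod0, prod0, h.symm.polar_eq, h.polar_eq, mul_comm]
    have h1 := main a v h.symm ha hv hkm (by omega) (by rwa [e])
    have h2 := hpol _ h.symm.good h1 (by rwa [e])
    rw [h.symm.polar_eq] at h2
    exact hband _ h.good h2 hlt

/-- c is a level, r the outer and θ the inner radius of the band. -/
theorem near_of_lt {c r θ : ℝ} (hθ : 0 < θ) (hθr : θ < r) (hr : r < 1)
    (hband : ∀ K : Set R3, Good K → Near r K → prod0 K < c → Near θ K)
    (hpol : ∀ K : Set R3, Good K → Near θ K → prod0 K < c → Near r (polar K))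
    (htet : ∀ v : Fin 4 → R3, Good (convexHull ℝ (range v)) → Near θ (convexHull ℝ (range v)))
    (hshift : ∀ (K : Set R3) (z : R3), maxTet ((fun x => x - z) '' K) = maxTet K)
    (hmap : ∀ (T : R3 ≃ₗ[ℝ] R3) (K : Set R3), Near θ (T '' K) ↔ Near θ K)
    {K : Set R3} (hK : Good K) (hlt : prod0 K < c) :
    (1 - θ) * volume.real K ≤ maxTet K := by
  have hθ1 : θ < 1 := hθr.trans hr
  have key : ∀ᶠ l in 𝓝[<] (1 : ℝ), l ^ 3 * ((1 - θ) * volume.real K) ≤ maxTet K := by
    have hsmall : ∀ᶠ l in 𝓝[<] (1 : ℝ), prod0 K < l ^ 3 * c := by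
      refine nhdsWithin_le_nhds ?_
      refine continuousAt_const.eventually_lt (by fun_prop) ?_
      simpa using hlt
    filter_upwards [hsmall, Ioo_mem_nhdsLT (show (0 : ℝ) < 1 by norm_num)] with l hl hl01
    obtain ⟨m, k, v, a, hD, hKQ, hQK⟩ := exists_dual_approx hK hl01.1 hl01.2
    set Q := convexHull ℝ (range v) with hQ
    have hcK : IsCompact (l⁻¹ • K) := hK.cpt.smul l⁻¹
    have hvolK : volume.real (l⁻¹ • K) = l⁻¹ ^ 3 * volume.real K := by
      rw [measureReal_def, Measure.addHaar_smul_of_nonneg _ (inv_nonneg.2 hl01.1.le),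
        Module.finrank_pi, Fintype.card_fin, ENNReal.toReal_mul,
        ENNReal.toReal_ofReal (pow_nonneg (inv_nonneg.2 hl01.1.le) 3), measureReal_def]
    have hv2 : volume.real (polar Q) ≤ volume.real (polar K) :=
      measureReal_mono (fun y hy x hx => hy x (hKQ hx)) hK.good_polar.cpt.measure_lt_top.ne
    have h3 : prod0 Q < c := by
      have h4 : prod0 Q ≤ l⁻¹ ^ 3 * prod0 K := by
        rw [prod0, prod0, ← mul_assoc, ← hvolK]
        exact mul_le_mul (measureReal_mono hQK hcK.measure_lt_top.ne) hv2 measureReal_nonneg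
          measureReal_nonneg
      refine h4.trans_lt ?_
      rw [inv_pow, inv_mul_lt_iff₀ (pow_pos hl01.1 3)]
      exact hl
    have hN := near_pairs hθr hr hband hpol htet hshift hmap _ m k v a hD rfl h3
    unfold Near at hN
    have h5 : (1 - θ) * volume.real K ≤ (1 - θ) * volume.real Q :=
      mul_le_mul_of_nonneg_left (measureReal_mono hKQ hD.good.cpt.measure_lt_top.ne) (by linarith)
    have h6 : maxTet Q ≤ l⁻¹ ^ 3 * maxTet K := by
      refine csSup_le ⟨_, fun _ => 0, fun _ _ => hD.good.zero_mem, rfl⟩ ?_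
      rintro _ ⟨w, hw, rfl⟩
      choose x hx hxe using fun i => hQK (hw i trivial)
      have hmx : tetVol x ≤ maxTet K := le_csSup
        (((isCompact_univ_pi fun _ : Fin 4 => hK.cpt).image (by
          unfold tetVol
          exact ((Continuous.matrix_det (continuous_matrix fun i j => by fun_prop)).abs).div_const
            6)).bddAbove) ⟨x, fun i _ => hx i, rfl⟩
      have e : w = fun i => l⁻¹ • x i := funext fun i => (hxe i).symm
      have et : tetVol w = l⁻¹ ^ 3 * tetVol x := by
        simp only [tetVol, e, Pi.smul_apply, smul_eq_mul, ← mul_sub]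
        rw [show (Matrix.of fun (q p : Fin 3) => l⁻¹ * (x q.succ p - x 0 p)) =
          l⁻¹ • Matrix.of fun (q p : Fin 3) => (x q.succ p - x 0 p) from rfl, Matrix.det_smul,
          abs_mul, Fintype.card_fin, abs_of_nonneg (pow_nonneg (inv_nonneg.2 hl01.1.le) 3)]
        ring
      rw [et]
      exact mul_le_mul_of_nonneg_left hmx (pow_nonneg (inv_nonneg.2 hl01.1.le) 3)
    have h7 : (1 - θ) * volume.real K ≤ l⁻¹ ^ 3 * maxTet K := by linarith
    rwa [inv_pow, le_inv_mul_iff₀ (pow_pos hl01.1 3)] at h7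
  have hlim : Tendsto (fun l : ℝ => l ^ 3 * ((1 - θ) * volume.real K)) (𝓝[<] 1)
      (𝓝 ((1 - θ) * volume.real K)) := by
    have : Tendsto (fun l : ℝ => l ^ 3 * ((1 - θ) * volume.real K)) (𝓝 1)
        (𝓝 (1 ^ 3 * ((1 - θ) * volume.real K))) := (by fun_prop : Continuous fun l : ℝ =>
          l ^ 3 * ((1 - θ) * volume.real K)).tendsto 1
    rw [one_pow, one_mul] at this
    exact this.mono_left nhdsWithin_le_nhds
  exact le_of_tendsto hlim key

end Vale.Agent.P248.Three
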