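import Vale.Agent.P248.Equality.Defs
import Vale.Agent.P248.Three.Tetra
import Vale.Agent.P248.Three.Move
import Vale.Agent.P248.Turn

/-!
# P248: largest inscribed tetrahedra and the normal position near tetrahedra
-/

open MeasureTheory Set Filter Topology
open scoped Pointwise Matrix

namespace Vale.Agent.P248.Three

variable {K : Set R3}

/-! ## Tetrahedra -/

lemma hull_four (v : Fin 4 → R3) :
    convexHull ℝ (range v) = (fun y => v 0 + y) '' (Matrix.toLin'
      (Matrix.of fun (q l : Fin 3) => v q.succ l - v 0 l)ᵀ ''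
        {x : R3 | (∀ i, 0 ≤ x i) ∧ ∑ i, x i ≤ 1}) := by
  ext x
  rw [image_image, mem_hull_iff]
  constructor
  · rintro ⟨l, l0, l1, rfl⟩
    rw [Fin.sum_univ_succ] at l1
    refine ⟨fun q => l q.succ, ⟨fun q => l0 _, by linarith [l0 0]⟩, ?_⟩
    funext p
    simp only [Matrix.toLin'_apply, Matrix.mulVec, dotProduct, Matrix.transpose_apply,
      Matrix.of_apply, Pi.add_apply, Finset.sum_apply, Pi.smul_apply, smul_eq_mul,
      sub_mul, Finset.sum_sub_distrib, Fin.sum_univ_succ (f := fun i => l i * v i p),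
      ← Finset.mul_sum]
    simp only [mul_comm (v (Fin.succ _) p)]
    linear_combination (-v 0 p) * l1
  · rintro ⟨y, ⟨y0, y1⟩, rfl⟩
    refine ⟨Fin.cons (1 - ∑ q, y q) y, fun i => ?_, by simp [Fin.sum_univ_succ], ?_⟩
    · induction i using Fin.cases with
      | zero => simpa using y1
      | succ q => simpa using y0 q
    funext p
    simp only [Matrix.toLin'_apply, Matrix.mulVec, dotProduct, Matrix.transpose_apply,
      Matrix.of_apply, Pi.add_apply, Finset.sum_apply, Pi.smul_apply, smul_eq_mul,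
      sub_mul, Finset.sum_sub_distrib, Fin.sum_univ_succ (n := 3), Fin.cons_zero, Fin.cons_succ,
      ← Finset.mul_sum]
    simp only [mul_comm (v (Fin.succ _) p)]
    ring

lemma volume_hull_four (v : Fin 4 → R3) :
    volume.real (convexHull ℝ (range v)) = tetVol v := by
  have hS6 : volume.real {x : R3 | (∀ i, 0 ≤ x i) ∧ ∑ i, x i ≤ 1} = 1 / 6 := by
    rw [vol_corner]; norm_num [Nat.factorial]
  rw [hull_four, image_add_left, measureReal_def, measure_preimage_add,
    Measure.addHaar_image_linearMap, ENNReal.toReal_mul, ENNReal.toReal_ofReal (abs_nonneg _),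
    LinearMap.det_toLin', Matrix.det_transpose, ← measureReal_def, hS6, tetVol]
  ring

lemma tetVol_map (f : R3 →ₗ[ℝ] R3) (w : Fin 4 → R3) :
    tetVol (fun i => f (w i)) = |LinearMap.det f| * tetVol w := by
  rw [← volume_hull_four, ← volume_hull_four, show (range fun i => f (w i)) = f '' range w by
    rw [← range_comp]; rfl, ← LinearMap.image_convexHull, measureReal_def,
    Measure.addHaar_image_linearMap, ENNReal.toReal_mul, ENNReal.toReal_ofReal (abs_nonneg _),
    ← measureReal_def]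

lemma continuous_tetVol : Continuous tetVol := by
  unfold tetVol
  exact ((Continuous.matrix_det (continuous_matrix fun i j => by fun_prop)).abs).div_const 6

lemma bddAbove_tetVol (hc : IsCompact K) :
    BddAbove (tetVol '' Set.pi univ fun _ : Fin 4 => K) :=
  ((isCompact_univ_pi fun _ : Fin 4 => hc).image continuous_tetVol).bddAbove

theorem tetVol_le_maxTet (hc : IsCompact K) {w : Fin 4 → R3} (hw : ∀ i, w i ∈ K) :
    tetVol w ≤ maxTet K :=
  le_csSup (bddAbove_tetVol hc) ⟨w, fun i _ => hw i, rfl⟩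

theorem exists_maxTet (hc : IsCompact K) (hne : K.Nonempty) :
    ∃ w : Fin 4 → R3, (∀ i, w i ∈ K) ∧ tetVol w = maxTet K := by
  obtain ⟨x, hx⟩ := hne
  obtain ⟨w, hw, e⟩ := ((isCompact_univ_pi fun _ : Fin 4 => hc).image continuous_tetVol).sSup_mem
    ⟨_, fun _ => x, fun _ _ => hx, rfl⟩
  exact ⟨w, fun i => hw i trivial, e⟩

theorem maxTet_le_volume (hc : IsCompact K) (hv : Convex ℝ K) (hne : K.Nonempty) :
    maxTet K ≤ volume.real K := by
  obtain ⟨w, hw, e⟩ := exists_maxTet hc hne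
  rw [← e, ← volume_hull_four]
  exact measureReal_mono (convexHull_min (range_subset_iff.2 hw) hv) hc.measure_lt_top.ne

lemma volume_pos (hK : Good K) : 0 < volume.real K :=
  ENNReal.toReal_pos (Measure.measure_pos_of_mem_nhds volume
    (mem_interior_iff_mem_nhds.1 hK.int)).ne' hK.cpt.measure_lt_top.ne

theorem near_tetra {v : Fin 4 → R3} (h : Good (convexHull ℝ (range v))) {θ : ℝ} (hθ : 0 < θ) :
    Near θ (convexHull ℝ (range v)) := by
  have h1 := tetVol_le_maxTet h.cpt (w := v) fun i => subset_convexHull ℝ _ ⟨i, rfl⟩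
  have h2 := volume_pos h
  rw [← volume_hull_four] at h1
  unfold Near
  nlinarith

lemma maxTet_image (T : R3 ≃ₗ[ℝ] R3) (K : Set R3) :
    maxTet (T '' K) = |LinearMap.det (T : R3 →ₗ[ℝ] R3)| * maxTet K := by
  unfold maxTet
  rw [← smul_eq_mul, ← Real.sSup_smul_of_nonneg (abs_nonneg _), ← image_smul, image_image]
  congr 1
  ext r
  constructor
  · rintro ⟨w, hw, rfl⟩
    refine ⟨fun i => T.symm (w i), fun i _ => ?_, ?_⟩
    · obtain ⟨x, hx, hxe⟩ := hw i trivial
      simpa [← hxe] using hx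
    · simp only [smul_eq_mul]
      rw [← tetVol_map]
      simp
  · rintro ⟨w, hw, rfl⟩
    exact ⟨fun i => T (w i), fun i _ => ⟨w i, hw i trivial, rfl⟩, by
      simp only [smul_eq_mul]; rw [← tetVol_map]; rfl⟩

lemma volume_image (T : R3 ≃ₗ[ℝ] R3) (K : Set R3) :
    volume.real (T '' K) = |LinearMap.det (T : R3 →ₗ[ℝ] R3)| * volume.real K := by
  rw [measureReal_def, show (T '' K) = (T : R3 →ₗ[ℝ] R3) '' K from rfl,
    Measure.addHaar_image_linearMap, ENNReal.toReal_mul, ENNReal.toReal_ofReal (abs_nonneg _)]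
  rfl

theorem near_image_iff (T : R3 ≃ₗ[ℝ] R3) {θ : ℝ} {K : Set R3} :
    Near θ (T '' K) ↔ Near θ K := by
  unfold Near
  rw [maxTet_image, volume_image, mul_left_comm]
  exact mul_lt_mul_iff_right₀ (abs_pos.2 T.isUnit_det'.ne_zero)

theorem maxTet_shift (K : Set R3) (z : R3) : maxTet ((fun x => x - z) '' K) = maxTet K := by
  unfold maxTet
  congr 1
  ext r
  constructor
  · rintro ⟨w, hw, rfl⟩
    refine ⟨fun i => w i + z, fun i _ => ?_, by simp [tetVol]⟩
    obtain ⟨x, hx, hxe⟩ := hw i trivial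
    simpa [← hxe] using hx
  · rintro ⟨w, hw, rfl⟩
    exact ⟨fun i => w i - z, fun i _ => ⟨w i, hw i trivial, rfl⟩, by simp [tetVol]⟩

theorem eq_hull_of_maxTet (hK : Good K) (h : maxTet K = volume.real K) :
    ∃ v : Fin 4 → R3, K = convexHull ℝ (range v) := by
  obtain ⟨w, hw, e⟩ := exists_maxTet hK.cpt ⟨0, hK.zero_mem⟩
  refine ⟨w, (Subset.antisymm ?_ (convexHull_min (range_subset_iff.2 hw) hK.conv))⟩
  have hH : IsCompact (convexHull ℝ (range w)) := (finite_range w).isCompact_convexHull ℝ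
  have hHK : convexHull ℝ (range w) ⊆ K := convexHull_min (range_subset_iff.2 hw) hK.conv
  have hint : interior K ⊆ convexHull ℝ (range w) := by
    intro x hx
    by_contra hxH
    have hpos := (isOpen_interior.inter hH.isClosed.isOpen_compl).measure_pos volume ⟨x, hx, hxH⟩
    have hd : volume (K \ convexHull ℝ (range w)) = 0 := by
      rw [measure_sdiff hHK hH.measurableSet.nullMeasurableSet hH.measure_lt_top.ne,
        tsub_eq_zero_iff_le,
        ← ENNReal.toReal_le_toReal hK.cpt.measure_lt_top.ne hH.measure_lt_top.ne,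
        ← measureReal_def, ← measureReal_def, volume_hull_four, e, h]
    exact hpos.ne' (measure_mono_null (fun y hy =>
      (show y ∈ K \ convexHull ℝ (range w) from ⟨interior_subset hy.1, hy.2⟩)) hd)
  calc K ⊆ closure K := subset_closure
    _ = closure (interior K) := (hK.conv.closure_interior_eq_closure_of_nonempty_interior
        ⟨0, hK.int⟩).symm
    _ ⊆ _ := closure_minimal hint hH.isClosed

/-! ## The normal position -/

/-- The gradients of the barycentric coordinates. -/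
def gd : Fin 4 → R3 := Fin.cons (fun _ => -1) fun q => Pi.single q 1

lemma gd_ne_zero (i : Fin 4) : gd i ≠ 0 := by
  induction i using Fin.cases with
  | zero => exact fun h => by simpa [gd] using congrFun h 0
  | succ q => exact fun h => by simpa [gd] using congrFun h q

lemma bn_eq (l : Fin 4 → ℝ) (x : R3) (i : Fin 4) : bn l x i = l i + dot (gd i) x := by
  induction i using Fin.cases with
  | zero => simp [bn, gd, dot, Finset.sum_neg_distrib]; ring
  | succ q => simp [bn, gd, dot, Pi.single_apply]; ring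

lemma bn_wn {l : Fin 4 → ℝ} (h : ∑ i, l i = 1) (i j : Fin 4) :
    bn l (wn l j) i = if i = j then 1 else 0 := by
  rw [Fin.sum_univ_succ] at h
  induction i using Fin.cases with
  | succ q => simp [bn, wn, eq_comm]
  | zero =>
    induction j using Fin.cases with
    | zero => simp [bn, wn, (Fin.succ_ne_zero _).symm, Finset.sum_neg_distrib]; linarith
    | succ p =>
      simp [bn, wn, (Fin.succ_ne_zero _).symm, Fin.succ_inj, Finset.sum_sub_distrib]
      linarith

lemma det_update {l : Fin 4 → ℝ} (h : ∑ i, l i = 1) (x : R3) (i : Fin 4) :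
    (Matrix.of fun (q p : Fin 3) => Function.update (wn l) i x q.succ p -
      Function.update (wn l) i x 0 p).det = bn l x i := by
  rw [Fin.sum_univ_four] at h
  induction i using Fin.cases with
  | zero => simp [Matrix.det_fin_three, bn, wn, Function.update, Fin.sum_univ_three]; linarith
  | succ q =>
    rw [show bn l x q.succ = x q + l q.succ by simp [bn]]
    fin_cases q <;> simp [Matrix.det_fin_three, wn, Function.update]

lemma tetVol_update {l : Fin 4 → ℝ} (h : ∑ i, l i = 1) (x : R3) (i : Fin 4) :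
    tetVol (Function.update (wn l) i x) = |bn l x i| / 6 := by
  rw [tetVol, det_update h]

lemma tetVol_wn {l : Fin 4 → ℝ} (h : ∑ i, l i = 1) : tetVol (wn l) = 1 / 6 := by
  have := tetVol_update h (wn l 0) 0
  rwa [Function.update_eq_self, bn_wn h, if_pos rfl, abs_one] at this

/-- The corners of the dual tetrahedron. -/
noncomputable def dualPt (u : Fin 4 → ℝ) (i : Fin 4) : R3 := (-(u i)⁻¹) • gd i

lemma tetVol_dualPt {u : Fin 4 → ℝ} (hu : ∀ i, 0 < u i) :
    tetVol (dualPt u) = (∑ i, u i) / (6 * ∏ i, u i) := by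
  have := hu 0; have := hu 1; have := hu 2; have := hu 3
  have e : (Matrix.of fun (q p : Fin 3) => dualPt u q.succ p - dualPt u 0 p).det =
      -((∑ i, u i) / ∏ i, u i) := by
    simp [Matrix.det_fin_three, dualPt, gd, Fin.sum_univ_four, Fin.prod_univ_four]
    field_simp
    ring
  have hs : 0 < ∑ i, u i := Finset.sum_pos (fun i _ => hu i) Finset.univ_nonempty
  rw [tetVol, e, abs_neg, abs_of_pos (div_pos hs (Finset.prod_pos fun i _ => hu i))]
  ring

lemma adjoint_exists (T : R3 →ₗ[ℝ] R3) : ∃ S : R3 →ₗ[ℝ] R3,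
    LinearMap.det S = LinearMap.det T ∧ ∀ x y, dot x (S y) = dot (T x) y := by
  refine ⟨Matrix.toLin' (LinearMap.toMatrix' T)ᵀ, ?_, fun x y => ?_⟩
  · rw [LinearMap.det_toLin', Matrix.det_transpose, LinearMap.det_toMatrix']
  · conv_rhs => rw [show T x = (LinearMap.toMatrix' T).mulVec x by
      rw [LinearMap.toMatrix'_mulVec]]
    simp only [dot, Matrix.toLin'_apply, Matrix.mulVec, dotProduct, Matrix.transpose_apply,
      Finset.sum_mul, Finset.mul_sum]
    rw [Finset.sum_comm]
    exact Finset.sum_congr rfl fun i _ => Finset.sum_congr rfl fun j _ => by ring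

lemma normal_pos {θ : ℝ} (hθ : θ < 1) (hK : Good K) (hN : Near θ K) :
    ∃ (T : R3 ≃ₗ[ℝ] R3) (l : Fin 4 → ℝ),
      (∀ δ, (∀ i, |l i - 1 / 4| ≤ δ) → Normal δ l (T '' K)) ∧
      (∀ i, 0 < l i + (6 * volume.real (T '' K) - 1)) ∧
      ∑ i, l i = 1 ∧ 1 ≤ 6 * volume.real (T '' K) ∧ 6 * volume.real (T '' K) * (1 - θ) < 1 ∧
      (∀ x ∈ T '' K, ∀ i, 1 - 6 * volume.real (T '' K) ≤ bn l x i) := by
  obtain ⟨w, hw, hwe⟩ := exists_maxTet hK.cpt ⟨0, hK.zero_mem⟩
  set A : Matrix (Fin 3) (Fin 3) ℝ := Matrix.of fun q l => w q.succ l - w 0 l with hA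
  have hV : 0 < tetVol w := by
    rw [hwe]
    exact lt_trans (mul_pos (by linarith) (volume_pos hK)) hN
  have hdet : A.det ≠ 0 := fun h0 => by
    rw [tetVol, ← hA, h0, abs_zero, zero_div] at hV
    exact lt_irrefl _ hV
  have hinj : Function.Injective (Matrix.toLin' Aᵀ) := fun x y hxy =>
    Matrix.mulVec_injective_iff_isUnit.2 ((Matrix.isUnit_iff_isUnit_det _).2
      (by rw [Matrix.det_transpose]; exact hdet.isUnit)) (by simpa using hxy)
  set T := (LinearEquiv.ofInjectiveEndo (Matrix.toLin' Aᵀ) hinj).symm with hT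
  have hTe : ∀ q : Fin 3, T (w q.succ - w 0) = Pi.single q 1 := fun q => by
    rw [hT, LinearEquiv.symm_apply_eq]
    show _ = Matrix.toLin' Aᵀ (Pi.single q 1)
    funext p
    simp [hA]
  set b := -T (w 0) with hb
  set l : Fin 4 → ℝ := Fin.cons (1 - ∑ q, b q) b with hl
  have hl1 : ∑ i, l i = 1 := by rw [hl, Fin.sum_univ_succ]; simp
  have hwn : ∀ i, T (w i) = wn l i := by
    intro i
    funext p
    induction i using Fin.cases with
    | zero => simp [wn, hl, hb, (Fin.succ_ne_zero p).symm]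
    | succ q =>
      have := congrFun (hTe q) p
      rw [map_sub, Pi.sub_apply, Pi.single_apply] at this
      simp only [wn, hl, hb, Fin.cons_succ, Fin.succ_inj, Pi.neg_apply, eq_comm (a := q)]
      linarith
  have hK' := hK.image T
  have hmem : ∀ i, wn l i ∈ T '' K := fun i => ⟨w i, hw i, hwn i⟩
  have hmax : 6 * maxTet (T '' K) = 1 := by
    have h1 := tetVol_map (T : R3 →ₗ[ℝ] R3) w
    simp only [LinearEquiv.coe_coe, hwn, tetVol_wn hl1] at h1
    rw [maxTet_image, ← hwe, ← h1]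
    norm_num
  have hle : ∀ x ∈ T '' K, ∀ i, |bn l x i| ≤ 1 := fun x hx i => by
    have hu : ∀ j, Function.update (wn l) i x j ∈ T '' K := fun j => by
      rcases eq_or_ne j i with rfl | hj
      · simpa using hx
      · simpa [Function.update_of_ne hj] using hmem j
    have h2 := tetVol_le_maxTet hK'.cpt hu
    rw [tetVol_update hl1] at h2
    linarith
  have hvol : 1 ≤ 6 * volume.real (T '' K) := by
    linarith [maxTet_le_volume hK'.cpt hK'.conv ⟨0, hK'.zero_mem⟩]
  have hcap : ∀ x ∈ T '' K, ∀ i, 1 - 6 * volume.real (T '' K) ≤ bn l x i := fun x hx i => by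
    rcases le_or_gt 0 (bn l x i) with hp | hn
    · linarith
    have hu : ∀ j, Function.update (wn l) i x j ∈ T '' K := fun j => by
      rcases eq_or_ne j i with rfl | hj
      · simpa using hx
      · simpa [Function.update_of_ne hj] using hmem j
    set H1 := convexHull ℝ (range (wn l))
    set H2 := convexHull ℝ (range (Function.update (wn l) i x))
    have s1 : H1 ⊆ {y | dot ((-1 : ℝ) • gd i) y ≤ l i} := convexHull_subset_le (by
      rintro _ ⟨j, rfl⟩
      have := bn_wn hl1 i j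
      rw [bn_eq] at this
      rw [dot_smul]
      split at this <;> linarith)
    have s2 : H2 ⊆ {y | dot (gd i) y ≤ -l i} := convexHull_subset_le (by
      rintro _ ⟨j, rfl⟩
      rcases eq_or_ne j i with rfl | hj
      · rw [Function.update_self]; rw [bn_eq] at hn; linarith
      · have := bn_wn hl1 i j
        rw [bn_eq, if_neg hj.symm] at this
        rw [Function.update_of_ne hj]; linarith)
    have hnull : volume (H1 ∩ H2) = 0 := by
      refine measure_mono_null (fun y hy => ?_) (hyperplane_null (c := gd i) (γ := -l i)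
        (Or.inl (gd_ne_zero i)))
      have a1 : dot ((-1 : ℝ) • gd i) y ≤ l i := s1 hy.1
      have a2 : dot (gd i) y ≤ -l i := s2 hy.2
      rw [dot_smul] at a1
      show dot (gd i) y = -l i
      linarith
    have hc2 : IsCompact H2 := (finite_range _).isCompact_convexHull ℝ
    have hc1 : IsCompact H1 := (finite_range _).isCompact_convexHull ℝ
    have hu' : volume.real H1 + volume.real H2 ≤ volume.real (T '' K) := by
      rw [measureReal_def, measureReal_def, ← ENNReal.toReal_add hc1.measure_lt_top.ne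
        hc2.measure_lt_top.ne, ← measure_union_add_inter H1 hc2.measurableSet, hnull, add_zero]
      exact measureReal_mono (union_subset (convexHull_min (range_subset_iff.2 hmem) hK'.conv)
        (convexHull_min (range_subset_iff.2 hu) hK'.conv)) hK'.cpt.measure_lt_top.ne
    rw [volume_hull_four, volume_hull_four, tetVol_wn hl1, tetVol_update hl1, abs_of_neg hn] at hu'
    linarith
  refine ⟨T, l, fun δ hδ => ⟨hK', hl1, hδ, hmem, hle, hcap, hmax⟩, fun i => ?_, hl1, hvol, ?_,
    hcap⟩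
  · have hs : T '' K ⊆ {y | dot ((-1 : ℝ) • gd i) y ≤ l i + (6 * volume.real (T '' K) - 1)} :=
      fun y hy => by
        show dot ((-1 : ℝ) • gd i) y ≤ _
        have := hcap y hy i
        rw [bn_eq] at this
        rw [dot_smul]; linarith
    have := dot_lt_of_interior hs (smul_ne_zero (by norm_num) (gd_ne_zero i)) hK'.int
    simpa [dot] using this
  · have := (near_image_iff T).2 hN
    unfold Near at this
    nlinarith

/-- The polar contains a large tetrahedron. -/
lemma dual_bound {l : Fin 4 → ℝ} {ρ : ℝ} {T : R3 ≃ₗ[ℝ] R3} (hK : Good K)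
    (hu : ∀ i, 0 < l i + ρ) (hcap : ∀ x ∈ T '' K, ∀ i, -ρ ≤ bn l x i) :
    |LinearMap.det (T : R3 →ₗ[ℝ] R3)| * ((∑ i, (l i + ρ)) / (6 * ∏ i, (l i + ρ))) ≤
      maxTet (polar K) := by
  obtain ⟨S, hS, hST⟩ := adjoint_exists (T : R3 →ₗ[ℝ] R3)
  rw [← tetVol_dualPt hu, ← hS, ← tetVol_map S]
  refine tetVol_le_maxTet hK.good_polar.cpt fun i => ?_
  intro x hx
  show dot x (S _) ≤ 1
  rw [hST, dualPt, dot_smul_right, dot_comm, neg_mul, ← mul_neg, inv_mul_le_one₀ (hu i)]
  have := hcap _ ⟨x, hx, rfl⟩ i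
  rw [bn_eq] at this
  rw [LinearEquiv.coe_coe]
  linarith

lemma prod_le {u : Fin 4 → ℝ} (hu : ∀ i, 0 ≤ u i) :
    ∏ i, u i ≤ (∑ i, u i) ^ 4 / 256 := by
  rw [Fin.prod_univ_four, Fin.sum_univ_four]
  have p1 : u 0 * u 1 ≤ ((u 0 + u 1) / 2) ^ 2 := by nlinarith [sq_nonneg (u 0 - u 1)]
  have p2 : u 2 * u 3 ≤ ((u 2 + u 3) / 2) ^ 2 := by nlinarith [sq_nonneg (u 2 - u 3)]
  have p3 := mul_le_mul p1 p2 (mul_nonneg (hu 2) (hu 3)) (sq_nonneg _)
  have p4 : (u 0 + u 1) * (u 2 + u 3) ≤ (u 0 + u 1 + u 2 + u 3) ^ 2 / 4 := by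
    nlinarith [sq_nonneg (u 0 + u 1 - u 2 - u 3)]
  have p5 := pow_le_pow_left₀ (mul_nonneg (add_nonneg (hu 0) (hu 1))
    (add_nonneg (hu 2) (hu 3))) p4 2
  linarith

lemma sq_gap {a b c d : ℝ} (ha : 0 < a) (hb : 0 < b) (hc : 0 < c) (hd : 0 < d) :
    (a - b) ^ 2 * (a * b * c * d) ≤
      (a + b + c + d) ^ 2 * ((a + b + c + d) ^ 4 / 256 - a * b * c * d) := by
  set s := a + b + c + d
  set X := ((c + d) / 2) ^ 2
  have p2 : c * d ≤ X := by simp only [X]; nlinarith [sq_nonneg (c - d)]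
  have h1 : a * b * c * d ≤ (((a + b) / 2) ^ 2 - ((a - b) / 2) ^ 2) * X := by
    calc a * b * c * d = a * b * (c * d) := by ring
      _ ≤ a * b * X := mul_le_mul_of_nonneg_left p2 (mul_pos ha hb).le
      _ = _ := by ring
  have h2 : ((a + b) / 2) ^ 2 * X ≤ s ^ 4 / 256 := by
    have p4 : (a + b) * (c + d) ≤ s ^ 2 / 4 := by nlinarith [sq_nonneg (a + b - c - d)]
    have p5 := pow_le_pow_left₀ (by positivity) p4 2
    simp only [X]
    nlinarith
  have h3 : a * b * c * d ≤ (s / 2) ^ 2 * X := by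
    calc a * b * c * d = a * b * (c * d) := by ring
      _ ≤ (s / 2) ^ 2 * X := by
        refine mul_le_mul ?_ p2 (by positivity) (by positivity)
        nlinarith [sq_nonneg (a - b)]
  have h4 : (a - b) ^ 2 * X ≤ 4 * (s ^ 4 / 256 - a * b * c * d) := by nlinarith
  calc (a - b) ^ 2 * (a * b * c * d) ≤ (a - b) ^ 2 * ((s / 2) ^ 2 * X) :=
        mul_le_mul_of_nonneg_left h3 (sq_nonneg _)
    _ = (s / 2) ^ 2 * ((a - b) ^ 2 * X) := by ring
    _ ≤ (s / 2) ^ 2 * (4 * (s ^ 4 / 256 - a * b * c * d)) :=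
        mul_le_mul_of_nonneg_left h4 (sq_nonneg _)
    _ = _ := by ring

lemma sum_shift {l : Fin 4 → ℝ} (h : ∑ i, l i = 1) (ρ : ℝ) :
    ∑ i, (l i + ρ) = 1 + 4 * ρ := by
  rw [Finset.sum_add_distrib, h]; simp

lemma rho_le {θ v : ℝ} (hθ : θ < 1) (h : 6 * v * (1 - θ) < 1) : 6 * v - 1 ≤ θ / (1 - θ) := by
  rw [le_div_iff₀ (by linarith)]; nlinarith

/-- Near tetrahedra with small volume product admit the normal position. -/
theorem normalise : ∀ δ : ℝ, 0 < δ → ∃ r η : ℝ, 0 < r ∧ r < 1 ∧ 0 < η ∧ ∀ K : Set R3, Good K →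
    Near r K → prod0 K < 64 / 9 + η →
      ∃ (T : R3 ≃ₗ[ℝ] R3) (l : Fin 4 → ℝ), Normal δ l (T '' K) := by
  intro δ hδ
  have hf : Tendsto (fun r : ℝ => (1 + 4 * (r / (1 - r))) ^ 4 / 256 - 1 / (256 + 36 * r))
      (𝓝[>] 0) (𝓝 0) := by
    have : ContinuousAt (fun r : ℝ => (1 + 4 * (r / (1 - r))) ^ 4 / 256 - 1 / (256 + 36 * r)) 0 := by
      fun_prop (disch := norm_num)
    simpa using this.tendsto.mono_left nhdsWithin_le_nhds
  obtain ⟨r, ⟨hf', hr5⟩, hr0⟩ := (((hf.eventually (gt_mem_nhds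
    (show (0 : ℝ) < δ ^ 2 / 2048 by positivity))).and
    ((gt_mem_nhds (show (0 : ℝ) < 1 / 5 by norm_num)).filter_mono nhdsWithin_le_nhds)).and
    self_mem_nhdsWithin).exists
  have hr : (0 : ℝ) < r := hr0
  refine ⟨r, r, hr, by linarith, hr, fun K hK hN hlt => ?_⟩
  obtain ⟨T, l, hnorm, hu, hl1, hvol, hnear, hcap⟩ := normal_pos (by linarith) hK hN
  refine ⟨T, l, hnorm δ ?_⟩
  set ρ := 6 * volume.real (T '' K) - 1 with hρ
  have hρr : ρ ≤ r / (1 - r) := rho_le (by linarith) hnear
  have hρ0 : 0 ≤ ρ := by linarith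
  have hρ4 : r / (1 - r) ≤ 1 / 4 := by rw [div_le_iff₀ (by linarith)]; linarith
  set s := 1 + 4 * ρ with hs
  have hss : ∑ i, (l i + ρ) = s := sum_shift hl1 ρ
  set P := ∏ i, (l i + ρ) with hP
  have hP0 : 0 < P := Finset.prod_pos fun i _ => hu i
  have h1 := dual_bound hK hu (fun x hx i => by linarith [hcap x hx i])
  have h2 := maxTet_le_volume hK.good_polar.cpt hK.good_polar.conv ⟨0, hK.good_polar.zero_mem⟩
  set D := |LinearMap.det (T : R3 →ₗ[ℝ] R3)|
  have hD : 0 < D := abs_pos.2 T.isUnit_det'.ne_zero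
  have hv := volume_image T K
  have h3 : s / (36 * P) ≤ prod0 K := by
    calc s / (36 * P) ≤ 6 * volume.real (T '' K) * (s / (36 * P)) :=
          le_mul_of_one_le_left (by positivity) hvol
      _ = volume.real K * (D * (s / (6 * P))) := by rw [hv]; ring
      _ ≤ _ := by
          refine mul_le_mul_of_nonneg_left ?_ measureReal_nonneg
          rw [← hss]; exact h1.trans h2
  have h4 : 1 / (256 + 36 * r) ≤ P := by
    rw [div_le_iff₀ (by linarith)]
    have h5 : s / (36 * P) < 64 / 9 + r := h3.trans_lt hlt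
    rw [div_lt_iff₀ (by positivity)] at h5
    nlinarith
  have h5 : s ^ 4 / 256 ≤ (1 + 4 * (r / (1 - r))) ^ 4 / 256 := by
    have hs' : s ≤ 1 + 4 * (r / (1 - r)) := by linarith
    gcongr
  have h6 : (1 : ℝ) / 512 ≤ P := by
    refine le_trans ?_ h4
    exact one_div_le_one_div_of_le (by linarith) (by linarith)
  have hgap : ∀ a b c d : Fin 4, (l a + ρ) * (l b + ρ) * (l c + ρ) * (l d + ρ) = P →
      (l a + ρ) + (l b + ρ) + (l c + ρ) + (l d + ρ) = s → |l a - l b| ≤ δ := by
    intro a b c d e1 e2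
    have h7 := sq_gap (hu a) (hu b) (hu c) (hu d)
    rw [e1, e2, show l a + ρ - (l b + ρ) = l a - l b by ring] at h7
    have h8 : s ^ 2 * (s ^ 4 / 256 - P) ≤ 4 * (δ ^ 2 / 2048) := by
      rcases le_total (s ^ 4 / 256 - P) 0 with hn | hp
      · exact (mul_nonpos_of_nonneg_of_nonpos (sq_nonneg _) hn).trans (by positivity)
      · exact mul_le_mul (by nlinarith) (by linarith) hp (by norm_num)
    refine abs_le_of_sq_le_sq ?_ hδ.le
    have h9 : (l a - l b) ^ 2 * (1 / 512) ≤ (l a - l b) ^ 2 * P :=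
      mul_le_mul_of_nonneg_left h6 (sq_nonneg _)
    linarith
  have eP : P = (l 0 + ρ) * (l 1 + ρ) * (l 2 + ρ) * (l 3 + ρ) := by rw [hP, Fin.prod_univ_four]
  have es : s = (l 0 + ρ) + (l 1 + ρ) + (l 2 + ρ) + (l 3 + ρ) := by rw [← hss, Fin.sum_univ_four]
  have g01 := abs_le.1 (hgap 0 1 2 3 (by rw [eP]) (by rw [es]))
  have g02 := abs_le.1 (hgap 0 2 1 3 (by rw [eP]; ring) (by rw [es]; ring))
  have g03 := abs_le.1 (hgap 0 3 1 2 (by rw [eP]; ring) (by rw [es]; ring))
  have g12 := abs_le.1 (hgap 1 2 0 3 (by rw [eP]; ring) (by rw [es]; ring))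
  have g13 := abs_le.1 (hgap 1 3 0 2 (by rw [eP]; ring) (by rw [es]; ring))
  have g23 := abs_le.1 (hgap 2 3 0 1 (by rw [eP]; ring) (by rw [es]; ring))
  have hl4 : l 0 + l 1 + l 2 + l 3 = 1 := by rw [← hl1, Fin.sum_univ_four]
  intro i
  rw [abs_le]
  fin_cases i <;> constructor <;> simp <;> linarith

/-- The polar of a body near a tetrahedron with small volume product is near a tetrahedron. -/
theorem near_polar : ∀ r : ℝ, 0 < r → ∃ θ η : ℝ, 0 < θ ∧ 0 < η ∧ ∀ K : Set R3, Good K →
    Near θ K → prod0 K < 64 / 9 + η → Near r (polar K) := by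
  intro r hr
  have hf : Tendsto (fun t : ℝ => (1 - r) * ((1 + 4 * (t / (1 - t))) ^ 3 * (256 + 36 * t)))
      (𝓝[>] 0) (𝓝 ((1 - r) * 256)) := by
    have : ContinuousAt
        (fun t : ℝ => (1 - r) * ((1 + 4 * (t / (1 - t))) ^ 3 * (256 + 36 * t))) 0 := by
      fun_prop (disch := norm_num)
    simpa using this.tendsto.mono_left nhdsWithin_le_nhds
  obtain ⟨θ, ⟨hf', hθ1⟩, hθ0⟩ := (((hf.eventually (gt_mem_nhds
    (show (1 - r) * 256 < 256 by linarith))).and
    ((gt_mem_nhds (show (0 : ℝ) < 1 by norm_num)).filter_mono nhdsWithin_le_nhds)).and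
    self_mem_nhdsWithin).exists
  have hθ : (0 : ℝ) < θ := hθ0
  refine ⟨θ, θ, hθ, hθ, fun K hK hN hlt => ?_⟩
  obtain ⟨T, l, -, hu, hl1, hvol, hnear, hcap⟩ := normal_pos hθ1 hK hN
  set ρ := 6 * volume.real (T '' K) - 1 with hρ
  have hρr : ρ ≤ θ / (1 - θ) := rho_le hθ1 hnear
  have hρ0 : 0 ≤ ρ := by linarith
  set s := 1 + 4 * ρ with hs
  have hs0 : 0 < s := by linarith
  have h1 := dual_bound hK hu (fun x hx i => by linarith [hcap x hx i])
  rw [sum_shift hl1, ← hs] at h1
  have hP := prod_le fun i => (hu i).le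
  rw [sum_shift hl1, ← hs] at hP
  have hP0 : 0 < ∏ i, (l i + ρ) := Finset.prod_pos fun i _ => hu i
  set D := |LinearMap.det (T : R3 →ₗ[ℝ] R3)|
  have hD : 0 < D := abs_pos.2 T.isUnit_det'.ne_zero
  have hv := volume_image T K
  have h2 : D * (256 / (6 * s ^ 3)) ≤ maxTet (polar K) := by
    refine le_trans (mul_le_mul_of_nonneg_left ?_ hD.le) h1
    rw [div_le_div_iff₀ (by positivity) (by positivity)]
    nlinarith [mul_le_mul_of_nonneg_left hP (show (0 : ℝ) ≤ 256 * 6 by norm_num)]
  have hP2 := volume_pos hK.good_polar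
  have h3 : volume.real (polar K) ≤ 6 * D * (64 / 9 + θ) := by
    have h4 : volume.real (polar K) ≤ 6 * volume.real (T '' K) * volume.real (polar K) :=
      le_mul_of_one_le_left hP2.le hvol
    rw [hv] at h4
    unfold prod0 at hlt
    have h5 := mul_lt_mul_of_pos_left hlt (show 0 < 6 * D by positivity)
    linarith
  have h6 : (1 - r) * (s ^ 3 * (256 + 36 * θ)) < 256 := by
    rcases le_total (1 - r) 0 with hn | hp
    · have : (1 - r) * (s ^ 3 * (256 + 36 * θ)) ≤ 0 :=
        mul_nonpos_of_nonpos_of_nonneg hn (by positivity)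
      linarith
    · refine lt_of_le_of_lt (mul_le_mul_of_nonneg_left ?_ hp) hf'
      refine mul_le_mul_of_nonneg_right (pow_le_pow_left₀ hs0.le ?_ 3) (by linarith)
      linarith
  unfold Near
  rcases le_total (1 - r) 0 with hn | hp
  · exact lt_of_le_of_lt (mul_nonpos_of_nonpos_of_nonneg hn hP2.le)
      (lt_of_lt_of_le (by positivity) h2)
  · refine lt_of_le_of_lt (mul_le_mul_of_nonneg_left h3 hp) (lt_of_lt_of_le ?_ h2)
    rw [show D * (256 / (6 * s ^ 3)) = D * 256 / (6 * s ^ 3) by ring, lt_div_iff₀ (by positivity)]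
    have := mul_lt_mul_of_pos_left h6 hD
    linarith

end Vale.Agent.P248.Three
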