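import Vale.Agent.P248.Equality.Local
import Vale.Agent.P248.Equality.Simplex
import Vale.Agent.P248.Equality.Path
import Vale.Agent.P248.Three.Main

/-!
# P248: the equality case of the general Mahler inequality in space
-/

open MeasureTheory Set
open scoped Pointwise

namespace Vale.Agent.P248.Three

variable {K : Set R3}

lemma Near.mono {θ r : ℝ} (h : Near θ K) (hle : θ ≤ r) : Near r K :=
  lt_of_le_of_lt (mul_le_mul_of_nonneg_right (by linarith) measureReal_nonneg) h

lemma maxTet_pos {θ : ℝ} (hθ : θ < 1) (hK : Good K) (h : Near θ K) : 0 < maxTet K :=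
  lt_trans (mul_pos (by linarith) (volume_pos hK)) h

/-- The local inequality in affine-invariant form. -/
theorem near_local : ∃ r η κ : ℝ, 0 < r ∧ r < 1 ∧ 0 < η ∧ 0 < κ ∧ ∀ K : Set R3, Good K →
    Near r K → prod0 K < 64 / 9 + η →
      64 / 9 * (1 + κ * (volume.real K / maxTet K - 1)) ≤ prod0 K := by
  obtain ⟨δ, r₁, κ, hδ, hr₁, hκ, hloc⟩ := normal_local
  obtain ⟨r₀, η, hr₀, hr₀1, hη, hnorm⟩ := normalise δ hδ
  refine ⟨min r₀ (r₁ / (1 + r₁)), η, κ, lt_min hr₀ (by positivity),
    (min_le_left _ _).trans_lt hr₀1, hη, hκ, fun K hK hN hlt => ?_⟩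
  obtain ⟨T, l, hnm⟩ := hnorm K hK (hN.mono (min_le_left _ _)) hlt
  set D := |LinearMap.det (T : R3 →ₗ[ℝ] R3)|
  have hD : 0 < D := abs_pos.2 T.isUnit_det'.ne_zero
  have hm := maxTet_pos ((min_le_left _ _).trans_lt hr₀1) hK hN
  have hratio : 6 * volume.real (T '' K) = volume.real K / maxTet K := by
    have h1 := hnm.max
    rw [maxTet_image] at h1
    rw [volume_image, eq_div_iff hm.ne']
    linear_combination volume.real K * h1
  have hr : volume.real K / maxTet K - 1 ≤ r₁ := by
    have h1 := hN.mono (min_le_right _ _)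
    unfold Near at h1
    have e : (1 - r₁ / (1 + r₁)) = 1 / (1 + r₁) := by field_simp; ring
    rw [e, div_mul_eq_mul_div, one_mul, div_lt_iff₀ (by linarith)] at h1
    rw [sub_le_iff_le_add, div_le_iff₀ hm]
    linarith
  have h := hloc (T '' K) l hnm (by rw [hratio]; exact hr)
  rw [hratio, show prod0 (T '' K) = prod0 K from vol_prod_image T] at h
  exact h

/-- Bodies with product close to the minimum are close to tetrahedra, and there the product grows
linearly. -/
theorem stability : ∃ η κ : ℝ, 0 < η ∧ 0 < κ ∧ ∀ K : Set R3, Good K → prod0 K < 64 / 9 + η →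
    0 < maxTet K ∧ 64 / 9 * (1 + κ * (volume.real K / maxTet K - 1)) ≤ prod0 K := by
  obtain ⟨r, η₀, κ, hr, hr1, hη₀, hκ, hloc⟩ := near_local
  obtain ⟨θ₀, η₁, hθ₀, hη₁, hpol⟩ := near_polar r hr
  set θ := min θ₀ (r / 2) with hθd
  have hθ : 0 < θ := lt_min hθ₀ (by linarith)
  have hθr : θ < r := (min_le_right _ _).trans_lt (by linarith)
  set η := min (min η₀ η₁) (64 / 9 * κ * θ) with hηd
  have hη : 0 < η := lt_min (lt_min hη₀ hη₁) (by positivity)
  have h0 : η ≤ η₀ := (min_le_left _ _).trans (min_le_left _ _)
  have hband : ∀ K : Set R3, Good K → Near r K → prod0 K < 64 / 9 + η → Near θ K := by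
    intro K hK hN hlt
    have h := hloc K hK hN (by linarith)
    have hm := maxTet_pos hr1 hK hN
    have h1 : volume.real K / maxTet K - 1 < θ := by
      by_contra hc
      push Not at hc
      linarith [mul_le_mul_of_nonneg_left hc (show 0 ≤ 64 / 9 * κ by positivity),
        min_le_right (min η₀ η₁) (64 / 9 * κ * θ)]
    rw [sub_lt_iff_lt_add, div_lt_iff₀ hm] at h1
    unfold Near
    nlinarith [mul_pos (mul_pos hθ hθ) hm]
  have main := fun (K : Set R3) (hK : Good K) (hlt : prod0 K < 64 / 9 + η) =>
    near_of_lt hθ hθr hr1 hband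
      (fun K hK hN hlt => hpol K hK (hN.mono (min_le_left _ _))
        (by linarith [(min_le_left (min η₀ η₁) (64 / 9 * κ * θ)).trans (min_le_right η₀ η₁)]))
      (fun v hv => near_tetra hv hθ) maxTet_shift (fun T K => near_image_iff T) hK hlt
  refine ⟨η, κ, hη, hκ, fun K hK hlt => ?_⟩
  have hN : Near r K := by
    have := main K hK hlt
    unfold Near
    nlinarith [mul_pos (sub_pos.2 hθr) (volume_pos hK)]
  exact ⟨maxTet_pos hr1 hK hN, hloc K hK hN (by linarith)⟩

lemma good_translate (hc : IsCompact K) (hv : Convex ℝ K) {z : R3} (hz : z ∈ interior K) :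
    Good ((fun x => x - z) '' K) where
  cpt := hc.image (by fun_prop)
  conv := by
    have := hv.translate (-z)
    simpa [sub_eq_neg_add] using this
  int := by
    have h := (Homeomorph.subRight z).image_interior K
    have : (0 : R3) ∈ Homeomorph.subRight z '' interior K := ⟨z, hz, by simp⟩
    rw [h] at this
    exact this

lemma prod0_translate (K : Set R3) (z : R3) : prod0 ((fun x => x - z) '' K) =
    volume.real K * volume.real {y : R3 | ∀ x ∈ K, ∑ i, (x i - z i) * y i ≤ 1} := by
  have e : polar ((fun x => x - z) '' K) = {y : R3 | ∀ x ∈ K, ∑ i, (x i - z i) * y i ≤ 1} := by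
    ext y; simp [polar]
  rw [prod0, e]
  simp only [sub_eq_add_neg, image_add_right, measureReal_def, measure_preimage_add_right]

/-- The volume product at the centroid of a tetrahedron. -/
lemma tetra_centroid (v : Fin 4 → R3) (hi : (interior (convexHull ℝ (range v))).Nonempty) :
    ∃ z ∈ interior (convexHull ℝ (range v)),
      prod0 ((fun x => x - z) '' convexHull ℝ (range v)) = 64 / 9 := by
  set K := convexHull ℝ (range v) with hK
  set z : R3 := ∑ i, (1 / 4 : ℝ) • v i with hz
  have hzK : z ∈ interior K := by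
    by_contra h
    obtain ⟨f, hf⟩ := geometric_hahn_banach_open_point (convex_convexHull ℝ _).interior
      isOpen_interior h
    obtain ⟨p, hp⟩ := hi
    have hle : ∀ x ∈ K, f x ≤ f z := fun x hx => by
      have hcl : closure (interior K) ⊆ {y | f y ≤ f z} :=
        closure_minimal (fun y hy => (hf y hy).le) (isClosed_le f.continuous continuous_const)
      exact hcl (((convex_convexHull ℝ _).closure_interior_eq_closure_of_nonempty_interior
        ⟨p, hp⟩).symm ▸ subset_closure hx)
    have h1 : ∀ i, f (v i) ≤ f z := fun i => hle _ (subset_convexHull ℝ _ ⟨i, rfl⟩)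
    have h2 : f z = 1 / 4 * ∑ i, f (v i) := by simp [hz, Finset.mul_sum]
    rw [Fin.sum_univ_four] at h2
    have h3 : ∀ i, f z ≤ f (v i) := fun i => by
      fin_cases i <;> simp <;> linarith [h1 0, h1 1, h1 2, h1 3]
    have h4 : K ⊆ {y | f z ≤ f y} := convexHull_min (range_subset_iff.2 h3)
      (convex_halfSpace_ge (f : R3 →ₗ[ℝ] ℝ).isLinear _)
    linarith [hf p hp, show f z ≤ f p from h4 (interior_subset hp)]
  refine ⟨z, hzK, ?_⟩
  have e : (fun x => x - z) '' K = convexHull ℝ (range fun i => v i - z) := by
    have := convexHull_vadd (𝕜 := ℝ) (-z) (range v)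
    rw [← image_vadd, ← image_vadd, ← range_comp] at this
    simpa [Function.comp_def, sub_eq_neg_add, hK] using this.symm
  have hg := good_translate (hK ▸ (finite_range v).isCompact_convexHull ℝ)
    (hK ▸ convex_convexHull ℝ _) hzK
  rw [e] at hg ⊢
  obtain ⟨-, h⟩ := tetra_formula (fun i => v i - z) hg (μ := fun _ => 1 / 4) (fun _ => by norm_num)
    (by simp) (by
      simp only [smul_sub, Finset.sum_sub_distrib, ← hz, ← Finset.sum_smul]
      simp)
  rw [h]; norm_num

/-- In space the infimum of the product is the tetrahedral value exactly for tetrahedra. -/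
theorem mahler_three_iff (hc : IsCompact K) (hv : Convex ℝ K) (hi : (interior K).Nonempty) :
    (⨅ z : interior K, volume.real K *
        volume.real {y : R3 | ∀ x ∈ K, ∑ i, (x i - z.1 i) * y i ≤ 1}) = 64 / 9 ↔
      ∃ v : Fin 4 → R3, K = convexHull ℝ (range v) := by
  have : Nonempty (interior K) := hi.to_subtype
  have hlow : ∀ z : interior K, 64 / 9 ≤
      volume.real K * volume.real {y : R3 | ∀ x ∈ K, ∑ i, (x i - z.1 i) * y i ≤ 1} := fun z => by
    have := mahler_three hc hv z.2
    norm_num at this
    exact this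
  constructor
  · intro h
    obtain ⟨η, κ, hη, hκ, hst⟩ := stability
    have hm : maxTet K = volume.real K := by
      refine le_antisymm (maxTet_le_volume hc hv (hi.mono interior_subset)) ?_
      by_contra hgt
      push Not at hgt
      have key : ∀ e : ℝ, 0 < e → ∃ z ∈ interior K,
          prod0 ((fun x => x - z) '' K) < 64 / 9 + e := fun e he => by
        obtain ⟨z, hz⟩ := exists_lt_of_ciInf_lt (h.trans_lt (lt_add_of_pos_right (64 / 9 : ℝ) he))
        exact ⟨z.1, z.2, by rw [prod0_translate]; exact hz⟩
      obtain ⟨z₀, hz₀, hlt₀⟩ := key η hη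
      obtain ⟨hpos, -⟩ := hst _ (good_translate hc hv hz₀) hlt₀
      rw [maxTet_shift] at hpos
      have hd : 0 < 64 / 9 * κ * (volume.real K / maxTet K - 1) := by
        have : 1 < volume.real K / maxTet K := (one_lt_div hpos).2 hgt
        exact mul_pos (by positivity) (by linarith)
      obtain ⟨z, hz, hlt⟩ := key _ (lt_min hη hd)
      have h2 := (hst _ (good_translate hc hv hz)
        (hlt.trans_le (by linarith [min_le_left η (64 / 9 * κ * (volume.real K / maxTet K - 1))]))).2
      have hvol : volume.real ((fun x => x - z) '' K) = volume.real K := by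
        simp only [sub_eq_add_neg, image_add_right, measureReal_def, measure_preimage_add_right]
      rw [maxTet_shift, hvol] at h2
      linarith [min_le_right η (64 / 9 * κ * (volume.real K / maxTet K - 1))]
    obtain ⟨z, hz⟩ := hi
    have hvol : volume.real ((fun x => x - z) '' K) = volume.real K := by
      simp only [sub_eq_add_neg, image_add_right, measureReal_def, measure_preimage_add_right]
    obtain ⟨w, hw⟩ := eq_hull_of_maxTet (good_translate hc hv hz) (by rw [maxTet_shift, hvol, hm])
    refine ⟨fun i => w i + z, ?_⟩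
    have e := convexHull_vadd (𝕜 := ℝ) z (range w)
    rw [← image_vadd, ← image_vadd, ← range_comp] at e
    rw [show (range fun i => w i + z) = range ((fun x => z +ᵥ x) ∘ w) by
      simp [Function.comp_def, add_comm], e, ← hw, image_image]
    simp [add_sub_cancel]
  · rintro ⟨v, rfl⟩
    obtain ⟨z, hz, he⟩ := tetra_centroid v hi
    rw [prod0_translate] at he
    refine le_antisymm ?_ (le_ciInf hlow)
    exact he ▸ ciInf_le ⟨64 / 9, by rintro _ ⟨y, rfl⟩; exact hlow y⟩ (⟨z, hz⟩ : interior _)

end Vale.Agent.P248.Three
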